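import Vale.Agent.P092.SPC.RelF

/-!
P092, Team P, Track C, all amplifications (helper421): the relations between the limit maps at one
place (H486/RelA..RelE of helper486) for a picture with a finite family of vectors, part 2: the
cut-off maps, the limit maps, **(O2)**.
-/

set_option linter.all false

open scoped InnerProductSpace Pointwise ENNReal
open Filter Topology ContinuousLinearMap TopologicalSpace MeasureTheory

namespace Vale.Agent.P092.SPC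

open Vale.Agent.P092.H859.CL
open Vale.Agent.P092.H553 (ind ind_nonneg ind_le_one abs_ind_le ind_pos ind_neg)
open Vale.Agent.P092.RC (Moore Cm TRN TRNF PicF)
open Vale.Agent.P092.SD (Ms MsF UC)
open Vale.Agent.P092.SNT (ORBGF)
open Vale.Agent.P092.SP.X (ms_wk)
open Vale.Agent.P092.H494.PI (cm_mul cm_adj cm_conj unitary_norm)
open Vale.Agent.P092.H486.Eng (dg_mc cfr cfr_supp crd IsU IsUr ut ut_le tendsto_ut WL exists_isUr
  cut_close CutC UFamE)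
open Vale.Agent.P092.H486.Rel (cm_sum XX WCnt WCnt2 cfr_eq WL_sum isUr_cm poly_small
  ctr_same)
open Vale.Agent.P092.H790.CTA (ORBG SIZEG)
open Vale.Agent.P092.H790.CT (mulA oneA adjoin_mem)

section tail

variable {G Γ K κ : Type} [Group G] [TopologicalSpace G] [Group Γ] [NormedAddCommGroup K]
  [InnerProductSpace ℂ K] [CompleteSpace K] [Fintype κ] {π : G →* (K →L[ℂ] K)}
  {lam : Γ →* (K →L[ℂ] K)}
  {W : Set (K →L[ℂ] K)} {Ω : κ → K} {m : Set Γ → (K →L[ℂ] K)} {b : G} {sz : Γ → ℝ}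

/-- one vector of the family gives the calculus of the masses -/
theorem exists_ms (hp : PicF π lam W Ω) (hM : MsF lam W Ω m) :
    ∃ (W' : Set (K →L[ℂ] K)) (ω : K), Ms lam W' ω m := by
  have h1 : ∃ i, Ω i ≠ 0 := by
    by_contra h
    push Not at h
    have h2 := hp.nΩ
    simp [h] at h2
  obtain ⟨i, hi⟩ := h1
  obtain ⟨W', hW'⟩ := ms_wk hM (hM.om i) hi
  exact ⟨W', _, hW'⟩

/-- **Cyclicity**, families. -/
theorem cyc_topF (hp : PicF π lam W Ω) (hM : MsF lam W Ω m) (P : Submodule ℂ K)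
    (hc : IsClosed (P : Set K)) (hΩ : ∀ i, Ω i ∈ P) (hW : ∀ w ∈ W, ∀ x ∈ P, w x ∈ P)
    (hL : ∀ γ, ∀ x ∈ P, lam γ x ∈ P) (ζ : K) : ζ ∈ P := by
  obtain ⟨W', ω, hM'⟩ := exists_ms hp hM
  have h1 : ∀ ξ, m {1} ξ = ξ → ξ ∈ P := by
    intro ξ hξ
    have h2 := hM.cyc ξ hξ
    have h3 : (Submodule.span ℂ {η | ∃ i, ∃ w ∈ StarAlgebra.adjoin ℂ W, η = w (Ω i)} :
        Set K) ⊆ P := by
      refine Submodule.span_le.2 ?_
      rintro η ⟨i, w, hw, rfl⟩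
      exact adjoin_mem hp.Wadj P hW hw _ (hΩ i)
    exact (closure_minimal h3 hc) h2
  have h2 : ∀ γ, ∀ ξ, m {γ} ξ ∈ P := by
    intro γ ξ
    have e1 : ξ = lam γ (lam γ⁻¹ ξ) := by
      rw [← mulA, ← map_mul, mul_inv_cancel, map_one, oneA]
    rw [e1, H790.CT.ms_lam hM']
    refine hL γ _ (h1 _ ?_)
    have e2 : {y | γ * y ∈ ({γ} : Set Γ)} = {1} := by
      ext y
      simp
    rw [e2]
    exact H790.CT.ms_idem hM' _ _
  have h3 : ∀ F : Finset Γ, ∀ ξ, m (F : Set Γ) ξ ∈ P := by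
    classical
    intro F
    induction F using Finset.induction_on with
    | empty =>
      intro ξ
      rw [Finset.coe_empty, H790.CT.ms_empty hM']
      exact P.zero_mem
    | insert a s ha ih =>
      intro ξ
      rw [Finset.coe_insert, Set.insert_eq, H790.CT.ms_union hM']
      · exact P.add_mem (h2 a ξ) (ih ξ)
      · rw [Set.disjoint_singleton_left]
        exact_mod_cast ha
  have h4 : ζ ∈ closure (P : Set K) := by
    rw [Metric.mem_closure_iff]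
    intro ε hε
    obtain ⟨F, hF⟩ := hM.fin ζ (ε / 2) (half_pos hε)
    refine ⟨m (F : Set Γ) ζ, h3 F ζ, ?_⟩
    rw [dist_eq_norm, ← H790.CT.ms_compl_app hM']
    linarith
  rwa [hc.closure_eq] at h4

/-- tails for all vectors, from tails at the vectors of the family -/
theorem tailsF {I : Type} (hp : PicF π lam W Ω) (hM : MsF lam W Ω m) {l : Filter ℕ} (b : ℕ → G)
    (Sz : I → ℕ → Set Γ) (hI : Nonempty I)
    (hdir : ∀ i i', ∃ j, ∀ᶠ N in l, Sz j N ⊆ Sz i N ∧ Sz j N ⊆ Sz i' N)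
    (htr : ∀ γ i, ∃ j, ∀ᶠ N in l, {y | γ * y ∈ Sz j N} ⊆ Sz i N)
    (h0 : ∀ j, ∀ ε > 0, ∃ i, ∀ᶠ N in l, ‖m (Sz i N) (π (b N) (Ω j))‖ ≤ ε) (ζ : K) :
    ∀ ε > 0, ∃ i, ∀ᶠ N in l, ‖m (Sz i N) (π (b N) ζ)‖ ≤ ε := by
  obtain ⟨W', ω, hM'⟩ := exists_ms hp hM
  have hpi : ∀ g ξ, ‖π g ξ‖ = ‖ξ‖ := fun g ξ => unitary_norm hp.adjP g ξ
  have hli : ∀ γ x, ‖lam γ x‖ = ‖x‖ := fun γ x => unitary_norm hp.adjL γ x
  let P : Submodule ℂ K :=
    { carrier := {ζ | ∀ ε > 0, ∃ i, ∀ᶠ N in l, ‖m (Sz i N) (π (b N) ζ)‖ ≤ ε}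
      add_mem' := by
        intro x y hx hy ε hε
        obtain ⟨i, hi⟩ := hx (ε / 2) (half_pos hε)
        obtain ⟨i', hi'⟩ := hy (ε / 2) (half_pos hε)
        obtain ⟨j, hj⟩ := hdir i i'
        refine ⟨j, ?_⟩
        filter_upwards [hi, hi', hj] with N h1 h2 h3
        rw [map_add, map_add]
        refine (norm_add_le _ _).trans ?_
        have h4 := H790.CT.ms_mono hM' h3.1 (π (b N) x)
        have h5 := H790.CT.ms_mono hM' h3.2 (π (b N) y)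
        linarith
      zero_mem' := by
        intro ε hε
        refine ⟨hI.some, Eventually.of_forall fun N => ?_⟩
        rw [map_zero, map_zero, norm_zero]
        exact hε.le
      smul_mem' := by
        intro c x hx ε hε
        have hc : (0 : ℝ) < ‖c‖ + 1 := by positivity
        obtain ⟨i, hi⟩ := hx (ε / (‖c‖ + 1)) (div_pos hε hc)
        refine ⟨i, ?_⟩
        filter_upwards [hi] with N h1
        rw [map_smul, map_smul, norm_smul]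
        calc ‖c‖ * ‖m (Sz i N) (π (b N) x)‖ ≤ (‖c‖ + 1) * (ε / (‖c‖ + 1)) := by
              gcongr
              linarith
          _ = ε := by field_simp }
  have hPc : IsClosed (P : Set K) := by
    refine isClosed_of_closure_subset fun x hx => ?_
    intro ε hε
    obtain ⟨y, hy, hxy⟩ := Metric.mem_closure_iff.1 hx (ε / 2) (half_pos hε)
    obtain ⟨i, hi⟩ := hy (ε / 2) (half_pos hε)
    refine ⟨i, ?_⟩
    filter_upwards [hi] with N h1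
    have e1 : m (Sz i N) (π (b N) x) = m (Sz i N) (π (b N) y) + m (Sz i N) (π (b N) (x - y)) := by
      rw [← map_add, ← map_add, add_sub_cancel]
    rw [e1]
    refine (norm_add_le _ _).trans ?_
    have h2 : ‖m (Sz i N) (π (b N) (x - y))‖ ≤ ‖x - y‖ :=
      (H790.CT.ms_contr hM' _ _).trans (hpi _ _).le
    rw [dist_eq_norm] at hxy
    linarith
  refine cyc_topF hp hM P hPc h0 ?_ ?_ ζ
  · intro w hw x hx ε hε
    have hc : (0 : ℝ) < ‖w‖ + 1 := by positivity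
    obtain ⟨i, hi⟩ := hx (ε / (‖w‖ + 1)) (div_pos hε hc)
    refine ⟨i, ?_⟩
    filter_upwards [hi] with N h1
    have hw' := hp.WP w hw (b N)
    have e1 : π (b N) (w x) = (π (b N) * w * π (b N)⁻¹) (π (b N) x) := by
      rw [mulA, mulA, ← mulA (π (b N)⁻¹), ← map_mul, inv_mul_cancel, map_one,
        oneA]
    have e2 : m (Sz i N) ((π (b N) * w * π (b N)⁻¹) (π (b N) x)) =
        (π (b N) * w * π (b N)⁻¹) (m (Sz i N) (π (b N) x)) :=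
      congrArg (fun A : K →L[ℂ] K => A (π (b N) x)) (hM.cm (Sz i N) _ hw')
    rw [e1, e2, mulA, mulA, hpi]
    calc ‖w (π (b N)⁻¹ (m (Sz i N) (π (b N) x)))‖
        ≤ ‖w‖ * ‖π (b N)⁻¹ (m (Sz i N) (π (b N) x))‖ := w.le_opNorm _
      _ = ‖w‖ * ‖m (Sz i N) (π (b N) x)‖ := by rw [hpi]
      _ ≤ (‖w‖ + 1) * (ε / (‖w‖ + 1)) := by
          gcongr
          linarith
      _ = ε := by field_simp
  · intro γ x hx ε hε
    obtain ⟨i, hi⟩ := hx ε hε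
    obtain ⟨j, hj⟩ := htr γ i
    refine ⟨j, ?_⟩
    filter_upwards [hi, hj] with N h1 h2
    have e1 : π (b N) (lam γ x) = lam γ (π (b N) x) :=
      congrArg (fun A : K →L[ℂ] K => A x) (hp.comm (b N) γ)
    rw [e1, H790.CT.ms_lam hM', hli]
    exact (H790.CT.ms_mono hM' h2 _).trans h1

/-- the tails of the size function, all vectors -/
theorem size_tailF (hp : PicF π lam W Ω) (hM : MsF lam W Ω m)
    (hsz : ∀ γ, ∃ d : ℝ, 1 ≤ d ∧ ∀ y, sz (γ * y) ≤ d * sz y)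
    (hS : ∀ j, SIZEG b π (Ω j) m sz) {η : ℝ} (hη : 0 < η) (ξ : K) {ε : ℝ} (hε : 0 < ε) :
    ∀ᶠ N : ℕ in atTop, ‖m {γ | Real.exp (Real.exp (η * N)) < sz γ} (π (b ^ N)⁻¹ ξ)‖ ≤ ε := by
  obtain ⟨W', ω, hM'⟩ := exists_ms hp hM
  suffices hh : ∃ i : {i : ℝ // 0 < i ∧ i < η}, ∀ᶠ N : ℕ in atTop,
      ‖m {γ | Real.exp (Real.exp (i.1 * N)) < sz γ} (π (b ^ N)⁻¹ ξ)‖ ≤ ε by
    obtain ⟨⟨i, hi, hi'⟩, h1⟩ := hh
    filter_upwards [h1] with N hN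
    refine (H790.CT.ms_mono hM' ?_ _).trans hN
    intro γ hγ
    refine lt_of_le_of_lt ?_ (show Real.exp (Real.exp (η * N)) < sz γ from hγ)
    refine Real.exp_le_exp.2 (Real.exp_le_exp.2 ?_)
    exact mul_le_mul_of_nonneg_right hi'.le (Nat.cast_nonneg N)
  refine tailsF (I := {i : ℝ // 0 < i ∧ i < η}) hp hM (l := atTop)
    (fun N => (b ^ N)⁻¹) (fun i N => {γ | Real.exp (Real.exp (i.1 * N)) < sz γ})
    ⟨⟨η / 2, half_pos hη, half_lt_self hη⟩⟩ ?_ ?_ ?_ ξ ε hε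
  · rintro ⟨i, hi, hi'⟩ ⟨i', hj, hj'⟩
    refine ⟨⟨max i i', lt_max_of_lt_left hi, max_lt hi' hj'⟩, Eventually.of_forall fun N =>
      ⟨fun γ hγ => ?_, fun γ hγ => ?_⟩⟩
    · refine lt_of_le_of_lt ?_ (show Real.exp (Real.exp (max i i' * N)) < sz γ from hγ)
      refine Real.exp_le_exp.2 (Real.exp_le_exp.2 ?_)
      exact mul_le_mul_of_nonneg_right (le_max_left _ _) (Nat.cast_nonneg N)
    · refine lt_of_le_of_lt ?_ (show Real.exp (Real.exp (max i i' * N)) < sz γ from hγ)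
      refine Real.exp_le_exp.2 (Real.exp_le_exp.2 ?_)
      exact mul_le_mul_of_nonneg_right (le_max_right _ _) (Nat.cast_nonneg N)
  · rintro γ ⟨i, hi, hi'⟩
    obtain ⟨d, hd, h1⟩ := hsz γ
    have hd0 : 0 < d := by linarith
    obtain ⟨j, hij, hjη⟩ := exists_between hi'
    refine ⟨⟨j, hi.trans hij, hjη⟩, ?_⟩
    have h2 : Tendsto (fun N : ℕ => Real.exp (j * N) - Real.exp (i * N)) atTop atTop := by
      have h3 : Tendsto (fun N : ℕ => (j - i) * (N : ℝ)) atTop atTop :=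
        Tendsto.const_mul_atTop (by linarith) tendsto_natCast_atTop_atTop
      refine tendsto_atTop_mono (fun N => ?_) h3
      have h4 : (0 : ℝ) ≤ N := Nat.cast_nonneg N
      have h5 : Real.exp (j * N) = Real.exp (i * N) * Real.exp ((j - i) * N) := by
        rw [← Real.exp_add]
        congr 1
        ring
      have h6 : (1 : ℝ) ≤ Real.exp (i * N) := Real.one_le_exp (by positivity)
      have h7 : (j - i) * N + 1 ≤ Real.exp ((j - i) * N) := Real.add_one_le_exp _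
      have h8 : 0 ≤ (j - i) * N := mul_nonneg (by linarith) h4
      rw [h5]
      nlinarith
    filter_upwards [h2.eventually (eventually_ge_atTop (Real.log d))] with N hN y hy
    have hy' : Real.exp (Real.exp (j * N)) < sz (γ * y) := hy
    change Real.exp (Real.exp (i * N)) < sz y
    have h9 := hy'.trans_le (h1 y)
    have h10 : Real.exp (Real.exp (j * N)) = d * Real.exp (Real.exp (j * N) - Real.log d) := by
      rw [Real.exp_sub, Real.exp_log hd0]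
      field_simp
    rw [h10] at h9
    have h11 := lt_of_mul_lt_mul_left h9 hd0.le
    refine lt_of_le_of_lt (Real.exp_le_exp.2 ?_) h11
    linarith
  · intro j ε hε
    refine ⟨⟨η / 2, half_pos hη, half_lt_self hη⟩, ?_⟩
    filter_upwards [hS j 1 (η / 2) (half_pos hη) ε hε] with N hN
    rw [one_mul, inv_one, mul_one] at hN
    exact hN

end tail

section cut

variable {G Γ K V κ : Type} [Group G] [TopologicalSpace G] [IsTopologicalGroup G] [Group Γ]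
  [NormedAddCommGroup K] [InnerProductSpace ℂ K] [CompleteSpace K] [Fintype κ]
  {π : G →* (K →L[ℂ] K)}
  {lam : Γ →* (K →L[ℂ] K)} {W : Set (K →L[ℂ] K)} {Ω : κ → K} {mp : (Γ → ℝ) → (K →L[ℂ] K)}
  [NormedAddCommGroup V] [ProperSpace V] [MeasurableSpace V] [BorelSpace V] {μ : Measure V}
  [IsFiniteMeasureOnCompacts μ] [μ.IsOpenPosMeasure] {b b' : G} {n : V → G} {ρ : ℝ}
  {Y Y' : Type} [TopologicalSpace Y] [CompactSpace Y] [TopologicalSpace Y'] [CompactSpace Y']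
  {G1 G2 H1 H2 : Γ → ℝ} {bp : Γ → Y} {bp' : Γ → Y'} {sz : Γ → ℝ}
  {𝒰 𝒰' : Ultrafilter ℕ}

/-- the part of the first letter on a set `D` is small -/
theorem rest_leF (hP : ∀ g, adjoint (π g) = π g⁻¹) (hf : Fn mp) (hR : Rep fun g => π g) {M : ℝ}
    (hM0 : 0 ≤ M)
    {F : Γ → ℂ} (hF : ∀ g, ‖F g‖ ≤ M) {D : Set Γ} (hD : ∀ g, F g ≠ 0 → g ∈ D) (w : G) (ξ x : K) :
    ‖⟪ξ, PC mp (fun g => π g) w F x⟫_ℂ‖ ≤ M * ‖st mp D (π w ξ)‖ * ‖x‖ := by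
  have hpi : ∀ g ξ, ‖π g ξ‖ = ‖ξ‖ := fun g ξ => unitary_norm hP g ξ
  have e1 : ⟪ξ, PC mp (fun g => π g) w F x⟫_ℂ =
      ⟪adjoint (PC mp (fun g => π g) w F) ξ, x⟫_ℂ := by
    rw [adjoint_inner_left]
  have hc : ∀ g, ‖(starRingEnd ℂ) (F g)‖ ≤ M := fun g => by rw [RCLike.norm_conj]; exact hF g
  rw [e1, PC_adj hf hR hF]
  refine (norm_inner_le_norm _ _).trans ?_
  refine mul_le_mul_of_nonneg_right ?_ (norm_nonneg _)
  change ‖π w⁻¹ (mc mp (fun g => (starRingEnd ℂ) (F g)) (π w ξ))‖ ≤ _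
  rw [hpi, H859.CN.mc_cut hf hc (S := D) fun g hg => hD g fun h0 => hg (by rw [h0, map_zero])]
  exact mc_norm hf hM0 hc _

/-- **Relations between the cut-off maps**, families. -/
theorem rel_cutF (hp : PicF π lam W Ω) (hM : MsF lam W Ω (st mp))
    (hleg : Leg mp (fun g => π g) (fun γ => lam γ) W)
    (hf : Fn mp) (hR : Rep fun g => π g) (hUC : ∀ j, UC π W (Ω j) (st mp)) (hρ : 0 < ρ) (hρ1 : ρ < 1)
    (hnc : Tendsto n (𝓝 0) (𝓝 1)) (hORB : ORBGF μ b n ρ π lam W Ω)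
    (hctr : ∀ N : ℕ, ∀ O ∈ 𝓝 (1 : G), ∀ᶠ s : ℕ in atTop, ∀ x ∈ Metric.closedBall (0 : V) 1,
      (b' ^ s)⁻¹ * (b ^ N * n x * (b ^ N)⁻¹) * b' ^ s ∈ O)
    (hsz0 : ∀ γ, 0 < sz γ) (hsz : ∀ γ, ∃ d : ℝ, 1 ≤ d ∧ ∀ y, sz (γ * y) ≤ d * sz y)
    (hS : ∀ j, SIZEG b π (Ω j) (st mp) sz) (h𝒰 : (𝒰 : Filter ℕ) ≤ atTop) (h𝒰' : (𝒰' : Filter ℕ) ≤ atTop)
    {r : ℝ} {Er : C(Y, ℂ) →ₗ[ℂ] (K →L[ℂ] K)} {Fr : C(Y', ℂ) →ₗ[ℂ] (K →L[ℂ] K)}
    (hE : IsUr mp (fun g => π g) G1 G2 bp r (ut b 𝒰 : Filter G) Er)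
    (hF : IsUr mp (fun g => π g) H1 H2 bp' r (ut b' 𝒰' : Filter G) Fr)
    {ι : Type} [Fintype ι] (u : ι → C(Y, ℂ)) (v : ι → C(Y', ℂ)) {C : ℝ} {d : ℕ}
    (hC : ∀ J : ℝ, 0 ≤ J → ∀ η : Γ, ∀ S : Finset Γ,
      (∀ γ ∈ S, (G2 (γ * η) ≤ r ∧ G2 (γ * η) ≤ G1 (γ * η)) ∧ Real.log (sz (γ * η)) ≤ J ∧
        (H2 γ ≤ r ∧ H2 γ ≤ H1 γ)) →
      ∑ γ ∈ S, ‖∑ i, u i (bp (γ * η)) * v i (bp' γ)‖ ^ 2 ≤ C * (1 + J) ^ d) :
    ∑ i, Er (u i) * Fr (v i) = 0 := by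
  classical
  have hpi : ∀ g ξ, ‖π g ξ‖ = ‖ξ‖ := fun g ξ => unitary_norm hp.adjP g ξ
  have hli : ∀ γ x, ‖lam γ x‖ = ‖x‖ := fun γ x => unitary_norm hp.adjL γ x
  obtain ⟨T, hT⟩ : ∃ T, T = ∑ i, Er (u i) * Fr (v i) := ⟨_, rfl⟩
  rw [← hT]
  have hTcm : Cm W T := by
    rw [hT]
    exact cm_sum fun i _ => cm_mul (isUr_cm hE hf hR hleg (u i)) (isUr_cm hF hf hR hleg (v i))
  -- a common bound
  obtain ⟨M, hM1, hMu, hMv⟩ : ∃ M : ℝ, 1 ≤ M ∧ (∀ i, ‖u i‖ ≤ M) ∧ ∀ i, ‖v i‖ ≤ M := by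
    refine ⟨1 + ∑ i, ‖u i‖ + ∑ i, ‖v i‖, ?_, fun i => ?_, fun i => ?_⟩
    · have h1 : 0 ≤ ∑ i, ‖u i‖ := Finset.sum_nonneg fun i _ => norm_nonneg _
      have h2 : 0 ≤ ∑ i, ‖v i‖ := Finset.sum_nonneg fun i _ => norm_nonneg _
      linarith
    · have h1 : ‖u i‖ ≤ ∑ i, ‖u i‖ :=
        Finset.single_le_sum (f := fun i => ‖u i‖) (fun i _ => norm_nonneg _) (Finset.mem_univ i)
      have h2 : 0 ≤ ∑ i, ‖v i‖ := Finset.sum_nonneg fun i _ => norm_nonneg _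
      linarith
    · have h1 : ‖v i‖ ≤ ∑ i, ‖v i‖ :=
        Finset.single_le_sum (f := fun i => ‖v i‖) (fun i _ => norm_nonneg _) (Finset.mem_univ i)
      have h2 : 0 ≤ ∑ i, ‖u i‖ := Finset.sum_nonneg fun i _ => norm_nonneg _
      linarith
  have hM0 : (0 : ℝ) ≤ M := by linarith
  have bu : ∀ i g, ‖cfr G1 G2 bp r (u i) g‖ ≤ M := fun i g => (crd r (u i) g).trans (hMu i)
  have bv : ∀ i g, ‖cfr H1 H2 bp' r (v i) g‖ ≤ M := fun i g => (crd r (v i) g).trans (hMv i)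
  obtain ⟨η, hη, hpol⟩ := poly_small hρ hρ1 d
  -- the cut of the first letter
  obtain ⟨D, hD⟩ : ∃ D : ℕ → Set Γ, D = fun N : ℕ => {γ | Real.exp (Real.exp (η * N)) < sz γ} :=
    ⟨_, rfl⟩
  obtain ⟨Fc, hFc⟩ : ∃ Fc : ℕ → ι → Γ → ℂ, Fc = fun N i g =>
    if g ∈ D N then 0 else cfr G1 G2 bp r (u i) g := ⟨_, rfl⟩
  obtain ⟨Fd, hFd⟩ : ∃ Fd : ℕ → ι → Γ → ℂ, Fd = fun N i g =>
    if g ∈ D N then cfr G1 G2 bp r (u i) g else 0 := ⟨_, rfl⟩
  have bc : ∀ N i g, ‖Fc N i g‖ ≤ M := fun N i g => by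
    rw [hFc]
    dsimp only
    split_ifs
    · rw [norm_zero]; exact hM0
    · exact bu i g
  have bd : ∀ N i g, ‖Fd N i g‖ ≤ M := fun N i g => by
    rw [hFd]
    dsimp only
    split_ifs
    · exact bu i g
    · rw [norm_zero]; exact hM0
  have hsum : ∀ N i, cfr G1 G2 bp r (u i) = fun g => Fc N i g + Fd N i g := by
    intro N i
    funext g
    rw [hFc, hFd]
    dsimp only
    split_ifs
    · rw [zero_add]
    · rw [add_zero]
  -- the count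
  have hcnt : ∀ N : ℕ, ∀ ξ : Γ, ∑' γ, ‖∑ i, cfr H1 H2 bp' r (v i) γ * Fc N i (γ * ξ)‖ₑ ^ 2 ≤
      ENNReal.ofReal (C * (1 + Real.exp (η * N)) ^ d) := by
    intro N ξ
    rw [ENNReal.tsum_eq_iSup_sum]
    refine iSup_le fun S => ?_
    obtain ⟨S', hS'⟩ : ∃ S' : Finset Γ, S' = S.filter fun γ =>
      ∑ i, cfr H1 H2 bp' r (v i) γ * Fc N i (γ * ξ) ≠ 0 := ⟨_, rfl⟩
    have e0 : ∑ γ ∈ S, ‖∑ i, cfr H1 H2 bp' r (v i) γ * Fc N i (γ * ξ)‖ₑ ^ 2 =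
        ∑ γ ∈ S', ‖∑ i, cfr H1 H2 bp' r (v i) γ * Fc N i (γ * ξ)‖ₑ ^ 2 := by
      rw [hS', Finset.sum_filter]
      refine Finset.sum_congr rfl fun γ _ => ?_
      split_ifs with h0
      · rfl
      · rw [not_not] at h0
        rw [h0]
        simp
    have hcond : ∀ γ ∈ S', (G2 (γ * ξ) ≤ r ∧ G2 (γ * ξ) ≤ G1 (γ * ξ)) ∧
        Real.log (sz (γ * ξ)) ≤ Real.exp (η * N) ∧ (H2 γ ≤ r ∧ H2 γ ≤ H1 γ) := by
      intro γ hγ
      rw [hS', Finset.mem_filter] at hγ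
      obtain ⟨i, _, hi⟩ := Finset.exists_ne_zero_of_sum_ne_zero hγ.2
      have h1 := cfr_supp (left_ne_zero_of_mul hi)
      have h2 := right_ne_zero_of_mul hi
      rw [hFc] at h2
      dsimp only at h2
      split_ifs at h2 with h3
      · exact absurd rfl h2
      · have h4 := cfr_supp h2
        rw [hD] at h3
        have h5 : sz (γ * ξ) ≤ Real.exp (Real.exp (η * N)) := not_lt.1 h3
        have h6 := Real.log_le_log (hsz0 _) h5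
        rw [Real.log_exp] at h6
        exact ⟨⟨h4.1, h4.2.1⟩, h6, h1.1, h1.2.1⟩
    have e1 : ∑ γ ∈ S', ‖∑ i, cfr H1 H2 bp' r (v i) γ * Fc N i (γ * ξ)‖ₑ ^ 2 =
        ENNReal.ofReal (∑ γ ∈ S', ‖∑ i, u i (bp (γ * ξ)) * v i (bp' γ)‖ ^ 2) := by
      rw [ENNReal.ofReal_sum_of_nonneg fun i _ => sq_nonneg _]
      refine Finset.sum_congr rfl fun γ hγ => ?_
      obtain ⟨⟨a1, a2⟩, a3, a4, a5⟩ := hcond γ hγ
      have a6 : γ * ξ ∉ D N := by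
        rw [hD]
        intro h7
        have h8 : Real.exp (Real.exp (η * N)) < sz (γ * ξ) := h7
        have h9 := Real.log_lt_log (Real.exp_pos _) h8
        rw [Real.log_exp] at h9
        linarith
      rw [← ofReal_norm_eq_enorm, ENNReal.ofReal_pow (norm_nonneg _)]
      congr 3
      refine Finset.sum_congr rfl fun i _ => ?_
      rw [cfr_eq a4 a5, hFc]
      dsimp only
      rw [if_neg a6, cfr_eq a1 a2, mul_comm]
    rw [e0, e1]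
    exact ENNReal.ofReal_le_ofReal (hC _ (Real.exp_pos _).le ξ S' hcond)
  -- vanishing at the vectors `lam γ Ω`
  have hzero : ∀ j₀ γ, T (lam γ (Ω j₀)) = 0 := by
    intro j₀ γ
    refine ext_inner_left ℂ fun ξ => ?_
    rw [inner_zero_right]
    rw [← norm_eq_zero]
    refine le_antisymm (le_of_forall_pos_le_add fun κ hκ => ?_) (norm_nonneg _)
    rw [zero_add]
    obtain ⟨Q, hQ⟩ : ∃ Q : ℝ, Q = Fintype.card ι * M ^ 2 + ‖ξ‖ + 1 := ⟨_, rfl⟩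
    have hQ0 : 0 < Q := by rw [hQ]; positivity
    obtain ⟨ε, hε⟩ : ∃ ε : ℝ, ε = κ / Q := ⟨_, rfl⟩
    have hε0 : 0 < ε := by rw [hε]; positivity
    obtain ⟨δ, hδ, hest⟩ := estF (b' := b') hp hM hleg hf hR j₀ (hUC j₀) hρ.le hnc hORB hctr ι hM1 hε0
    have hlim : Tendsto (fun N : ℕ => ⟪ξ, (∑ i, PC mp (fun g => π g) (b ^ N)⁻¹
        (cfr G1 G2 bp r (u i)) * Fr (v i)) (lam γ (Ω j₀))⟫_ℂ) (𝒰 : Filter ℕ)
        (𝓝 ⟪ξ, T (lam γ (Ω j₀))⟫_ℂ) := by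
      have h1 : WL (ut b 𝒰 : Filter G) (fun w => ∑ i, PC mp (fun g => π g) w
        (cfr G1 G2 bp r (u i)) * Fr (v i)) T := by
        rw [hT]
        exact WL_sum fun i => (hE (u i)).mul_right (Fr (v i))
      exact tendsto_ut.1 (h1 (lam γ (Ω j₀)) ξ)
    refine le_of_tendsto hlim.norm ?_
    have h2 := (hpol C δ hδ).filter_mono h𝒰
    have h3 := (size_tailF (b := b) hp hM hsz hS hη ξ hε0).filter_mono h𝒰
    filter_upwards [h2, h3] with N h2 h3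
    have hlim' : Tendsto (fun s : ℕ => ⟪ξ, (∑ i, PC mp (fun g => π g) (b ^ N)⁻¹
        (cfr G1 G2 bp r (u i)) * PC mp (fun g => π g) (b' ^ s)⁻¹
        (cfr H1 H2 bp' r (v i))) (lam γ (Ω j₀))⟫_ℂ) (𝒰' : Filter ℕ)
        (𝓝 ⟪ξ, (∑ i, PC mp (fun g => π g) (b ^ N)⁻¹
        (cfr G1 G2 bp r (u i)) * Fr (v i)) (lam γ (Ω j₀))⟫_ℂ) := by
      have h1 : WL (ut b' 𝒰' : Filter G) (fun w => ∑ i, PC mp (fun g => π g) (b ^ N)⁻¹
        (cfr G1 G2 bp r (u i)) * PC mp (fun g => π g) w (cfr H1 H2 bp' r (v i)))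
        (∑ i, PC mp (fun g => π g) (b ^ N)⁻¹ (cfr G1 G2 bp r (u i)) * Fr (v i)) :=
        WL_sum fun i => (hF (v i)).mul_left _
      exact tendsto_ut.1 (h1 (lam γ (Ω j₀)) ξ)
    refine le_of_tendsto hlim'.norm ?_
    filter_upwards [(hest N).filter_mono h𝒰'] with s hs
    have h4 := hs γ (Fc N) (fun i => cfr H1 H2 bp' r (v i)) (bc N) bv _ (hcnt N) h2
    -- splitting
    have e1 : (∑ i, PC mp (fun g => π g) (b ^ N)⁻¹ (cfr G1 G2 bp r (u i)) *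
        PC mp (fun g => π g) (b' ^ s)⁻¹ (cfr H1 H2 bp' r (v i))) (lam γ (Ω j₀)) =
        (∑ i, PC mp (fun g => π g) (b ^ N)⁻¹ (Fc N i) *
        PC mp (fun g => π g) (b' ^ s)⁻¹ (cfr H1 H2 bp' r (v i))) (lam γ (Ω j₀)) +
        ∑ i, PC mp (fun g => π g) (b ^ N)⁻¹ (Fd N i)
          (PC mp (fun g => π g) (b' ^ s)⁻¹ (cfr H1 H2 bp' r (v i)) (lam γ (Ω j₀))) := by
      rw [ContinuousLinearMap.sum_apply, ContinuousLinearMap.sum_apply, ← Finset.sum_add_distrib]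
      refine Finset.sum_congr rfl fun i _ => ?_
      rw [hsum N i, PC_add hf (bc N i) (bd N i)]
      rfl
    rw [e1, inner_add_right]
    refine (norm_add_le _ _).trans ?_
    have c1 : ‖⟪ξ, (∑ i, PC mp (fun g => π g) (b ^ N)⁻¹ (Fc N i) *
        PC mp (fun g => π g) (b' ^ s)⁻¹ (cfr H1 H2 bp' r (v i))) (lam γ (Ω j₀))⟫_ℂ‖ ≤ ‖ξ‖ * ε := by
      refine (norm_inner_le_norm _ _).trans (mul_le_mul_of_nonneg_left ?_ (norm_nonneg _))
      rw [H486.Rel.prod_eq, hpi]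
      have e2 : π (b ^ N)⁻¹ (lam γ (Ω j₀)) = lam γ (π (b ^ N)⁻¹ (Ω j₀)) :=
        congrArg (fun A : K →L[ℂ] K => A (Ω j₀)) (hp.comm (b ^ N)⁻¹ γ)
      rw [e2]
      exact h4
    have c2 : ‖⟪ξ, ∑ i, PC mp (fun g => π g) (b ^ N)⁻¹ (Fd N i)
          (PC mp (fun g => π g) (b' ^ s)⁻¹ (cfr H1 H2 bp' r (v i)) (lam γ (Ω j₀)))⟫_ℂ‖ ≤
        Fintype.card ι * M ^ 2 * ε := by
      rw [inner_sum]
      refine (norm_sum_le _ _).trans ?_
      refine (Finset.sum_le_sum fun i _ => ?_ : _ ≤ ∑ i : ι, M ^ 2 * ε).trans (le_of_eq ?_)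
      · refine (rest_leF hp.adjP hf hR hM0 (bd N i) (D := D N) ?_ _ ξ _).trans ?_
        · intro g hg
          by_contra h0
          apply hg
          rw [hFd]
          dsimp only
          rw [if_neg h0]
        · have k1 : ‖PC mp (fun g => π g) (b' ^ s)⁻¹ (cfr H1 H2 bp' r (v i)) (lam γ (Ω j₀))‖ ≤ M := by
            refine (ContinuousLinearMap.le_opNorm _ _).trans ?_
            rw [hli]
            calc _ ≤ M * 1 := mul_le_mul (PC_opNorm hf hR hM0 (bv i) _) (norm_fam hp j₀)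
                  (norm_nonneg _) hM0
              _ = M := mul_one M
          have k2 : ‖st mp (D N) (π (b ^ N)⁻¹ ξ)‖ ≤ ε := by
            rw [hD]
            exact h3
          calc _ ≤ M * ε * M := by gcongr
            _ = M ^ 2 * ε := by ring
      · rw [Finset.sum_const, nsmul_eq_mul, Finset.card_univ]
        ring
    calc _ ≤ ‖ξ‖ * ε + Fintype.card ι * M ^ 2 * ε := add_le_add c1 c2
      _ ≤ Q * ε := by
          rw [hQ]
          nlinarith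
      _ = κ := by
          rw [hε]
          field_simp
  refine hp.tr_zero T hTcm ?_
  rw [TRNF]
  refine Finset.sum_eq_zero fun j _ => ?_
  rw [TRN, ENNReal.tsum_eq_zero]
  intro γ
  rw [hzero j γ]
  simp

end cut

section lim

variable {G Γ K V κ : Type} [Group G] [TopologicalSpace G] [IsTopologicalGroup G] [Group Γ]
  [NormedAddCommGroup K] [InnerProductSpace ℂ K] [CompleteSpace K] [Fintype κ]
  {π : G →* (K →L[ℂ] K)}
  {lam : Γ →* (K →L[ℂ] K)} {W : Set (K →L[ℂ] K)} {Ω : κ → K} {mp : (Γ → ℝ) → (K →L[ℂ] K)}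
  [NormedAddCommGroup V] [ProperSpace V] [MeasurableSpace V] [BorelSpace V] {μ : Measure V}
  [IsFiniteMeasureOnCompacts μ] [μ.IsOpenPosMeasure] {b b' : G} {n : V → G} {ρ : ℝ}
  {Y Y' : Type} [TopologicalSpace Y] [CompactSpace Y] [TopologicalSpace Y'] [CompactSpace Y']
  {G1 G2 H1 H2 : Γ → ℝ} {bp : Γ → Y} {bp' : Γ → Y'} {sz : Γ → ℝ}
  {𝒰 𝒰' : Ultrafilter ℕ}

/-- **Relations between the limit maps**, at the base place. -/
theorem rel_limF (hp : PicF π lam W Ω) (hM : MsF lam W Ω (st mp))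
    (hleg : Leg mp (fun g => π g) (fun γ => lam γ) W)
    (hf : Fn mp) (hR : Rep fun g => π g) (hUC : ∀ j, UC π W (Ω j) (st mp)) (hρ : 0 < ρ) (hρ1 : ρ < 1)
    (hnc : Tendsto n (𝓝 0) (𝓝 1)) (hORB : ORBGF μ b n ρ π lam W Ω)
    (hctr : ∀ N : ℕ, ∀ O ∈ 𝓝 (1 : G), ∀ᶠ s : ℕ in atTop, ∀ x ∈ Metric.closedBall (0 : V) 1,
      (b' ^ s)⁻¹ * (b ^ N * n x * (b ^ N)⁻¹) * b' ^ s ∈ O)
    (hsz0 : ∀ γ, 0 < sz γ) (hsz : ∀ γ, ∃ d : ℝ, 1 ≤ d ∧ ∀ y, sz (γ * y) ≤ d * sz y)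
    (hS : ∀ j, SIZEG b π (Ω j) (st mp) sz) (h𝒰 : (𝒰 : Filter ℕ) ≤ atTop) (h𝒰' : (𝒰' : Filter ℕ) ≤ atTop)
    {P : C(Y, ℂ) →ₗ[ℂ] (K →L[ℂ] K)} {Q : C(Y', ℂ) →ₗ[ℂ] (K →L[ℂ] K)}
    (hPc : CutC mp (fun g => π g) G1 G2 bp (ut b 𝒰 : Filter G) P)
    (hQc : CutC mp (fun g => π g) H1 H2 bp' (ut b' 𝒰' : Filter G) Q)
    {I : Type} [Fintype I] {u : I → C(Y, ℂ)} {v : I → C(Y', ℂ)}
    (hC : WCnt2 G1 G2 bp H1 H2 bp' sz u v) : ∑ i, P (u i) * Q (v i) = 0 := by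
  choose Pn hPn using fun n : ℕ => exists_isUr (G1 := G1) (G2 := G2) (bp := bp) (Y := Y) hf hR
    (ut b 𝒰) (n : ℝ)
  choose Qn hQn using fun n : ℕ => exists_isUr (G1 := H1) (G2 := H2) (bp := bp') (Y := Y') hf hR
    (ut b' 𝒰') (n : ℝ)
  have hz : ∀ n, ∑ i, Pn n (u i) * Qn n (v i) = 0 := by
    intro n
    obtain ⟨C, d, h⟩ := hC n
    exact rel_cutF hp hM hleg hf hR hUC hρ hρ1 hnc hORB hctr hsz0 hsz hS h𝒰 h𝒰' (hPn n) (hQn n)
      u v h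
  have tP : ∀ f ξ, Tendsto (fun n => Pn n f ξ) atTop (𝓝 (P f ξ)) := by
    intro f ξ
    rw [Metric.tendsto_nhds]
    intro ε hε
    obtain ⟨r0, hr0⟩ := hPc ξ (ε / (‖f‖ + 1)) (by positivity)
    filter_upwards [eventually_ge_atTop ⌈r0⌉₊] with n hn
    have h1 := hr0 n ((Nat.le_ceil r0).trans (by exact_mod_cast hn)) (Pn n) (hPn n) f
    rw [dist_comm, dist_eq_norm]
    refine h1.trans_lt ?_
    rw [mul_div_assoc', div_lt_iff₀ (by positivity)]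
    have := norm_nonneg f
    nlinarith
  have tQ : ∀ f ξ, Tendsto (fun n => Qn n f ξ) atTop (𝓝 (Q f ξ)) := by
    intro f ξ
    rw [Metric.tendsto_nhds]
    intro ε hε
    obtain ⟨r0, hr0⟩ := hQc ξ (ε / (‖f‖ + 1)) (by positivity)
    filter_upwards [eventually_ge_atTop ⌈r0⌉₊] with n hn
    have h1 := hr0 n ((Nat.le_ceil r0).trans (by exact_mod_cast hn)) (Qn n) (hQn n) f
    rw [dist_comm, dist_eq_norm]
    refine h1.trans_lt ?_
    rw [mul_div_assoc', div_lt_iff₀ (by positivity)]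
    have := norm_nonneg f
    nlinarith
  have nP : ∀ n f, ‖Pn n f‖ ≤ ‖f‖ := fun n f => (hPn n f).norm_le (norm_nonneg _)
    (Eventually.of_forall fun w => PC_opNorm hf hR (norm_nonneg _) (fun g => crd _ f g) w)
  ext ξ
  have h1 : Tendsto (fun n => ∑ i, (Pn n (u i) * Qn n (v i)) ξ) atTop
      (𝓝 (∑ i, (P (u i) * Q (v i)) ξ)) :=
    tendsto_finset_sum _ fun i _ => tendsto_mul_ap (l := (atTop : Filter ℕ))
      (fun n => nP n (u i)) (tP (u i)) (tQ (v i)) ξ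
  rw [ContinuousLinearMap.sum_apply]
  refine tendsto_nhds_unique h1 ?_
  have h2 : ∀ n, ∑ i, (Pn n (u i) * Qn n (v i)) ξ = 0 := fun n => by
    rw [← ContinuousLinearMap.sum_apply, hz n]
    rfl
  simp only [h2]
  exact tendsto_const_nhds

/-- **(O2), two families with the same source place** `g • z0`, `g • z0'`. -/
theorem rel_twoF {Z Z' : Type} [MulAction G Z] [MulAction G Z'] [MulAction Γ Y] [MulAction Γ Y']
    {z0 : Z} {z0' : Z'} {NA : ℝ → ℝ → Set Y → Set Γ} {NA' : ℝ → ℝ → Set Y' → Set Γ}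
    {U : Z → (C(Y, ℂ) →ₗ[ℂ] (K →L[ℂ] K))} {U' : Z' → (C(Y', ℂ) →ₗ[ℂ] (K →L[ℂ] K))} {p p' : ℝ}
    {Bd Bd' : Set K} {ms ms' : G → Set Γ → ℝ} {A A' : Subgroup G} {Br Br' : ℝ → Set Γ}
    (hp : PicF π lam W Ω) (hM : MsF lam W Ω (st mp)) (hUC : ∀ j, UC π W (Ω j) (st mp))
    (h : H859.CN.SysF mp (fun g => π g) Bd ms A Br G1 G2)
    (h' : H859.CN.SysF mp (fun g => π g) Bd' ms' A' Br' H1 H2)
    (hleg : Leg mp (fun g => π g) (fun γ => lam γ) W)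
    (he : Esc (st mp) (fun g => π g) Bd A (pw b⁻¹))
    (he' : Esc (st mp) (fun g => π g) Bd' A' (pw b'⁻¹))
    (h𝒰 : (𝒰 : Filter ℕ) ≤ atTop) (h𝒰' : (𝒰' : Filter ℕ) ≤ atTop)
    (hU : UFamE mp π lam W b G1 G2 bp 𝒰 NA z0 U p)
    (hU' : UFamE mp π lam W b' H1 H2 bp' 𝒰' NA' z0' U' p')
    (hρ : 0 < ρ) (hρ1 : ρ < 1)
    (hnc : Tendsto n (𝓝 0) (𝓝 1)) (hORB : ORBGF μ b n ρ π lam W Ω)
    (hctr : ∀ N : ℕ, ∀ O ∈ 𝓝 (1 : G), ∀ᶠ s : ℕ in atTop, ∀ x ∈ Metric.closedBall (0 : V) 1,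
      (b' ^ s)⁻¹ * (b ^ N * n x * (b ^ N)⁻¹) * b' ^ s ∈ O)
    (hsz0 : ∀ γ, 0 < sz γ) (hsz : ∀ γ, ∃ d : ℝ, 1 ≤ d ∧ ∀ y, sz (γ * y) ≤ d * sz y)
    (hS : ∀ j, SIZEG b π (Ω j) (st mp) sz)
    {I : Type} [Fintype I] {u : I → C(Y, ℂ)} {v : I → C(Y', ℂ)}
    (hC : WCnt2 G1 G2 bp H1 H2 bp' sz u v) (g : G) :
    ∑ i, U (g • z0) (u i) * U' (g • z0') (v i) = 0 := by
  have h0 := rel_limF (P := U z0) (Q := U' z0') hp hM hleg h.fn h.sys.rep hUC hρ hρ1 hnc hORB hctr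
    hsz0 hsz hS h𝒰 h𝒰'
    (fun ξ ε hε => cut_close h (he.mono (ut_le b h𝒰)) hU.isU ξ hε)
    (fun ξ ε hε => cut_close h' (he'.mono (ut_le b' h𝒰')) hU'.isU ξ hε) hC
  have e1 : π g⁻¹ * π g = 1 := by rw [← map_mul, inv_mul_cancel, map_one]
  have e : ∑ i, U (g • z0) (u i) * U' (g • z0') (v i) =
      π g * (∑ i, U z0 (u i) * U' z0' (v i)) * π g⁻¹ := by
    rw [Finset.mul_sum, Finset.sum_mul]
    refine Finset.sum_congr rfl fun i _ => ?_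
    rw [← hU.pcov, ← hU'.pcov]
    calc π g * U z0 (u i) * π g⁻¹ * (π g * U' z0' (v i) * π g⁻¹)
        = π g * U z0 (u i) * (π g⁻¹ * π g) * (U' z0' (v i) * π g⁻¹) := by simp only [mul_assoc]
      _ = _ := by rw [e1, mul_one]; simp only [mul_assoc]
  rw [e, h0, mul_zero, zero_mul]

/-- **(O2), one family.** -/
theorem rel_sameF {Z : Type} [MulAction G Z] [MulAction Γ Y]
    {z0 : Z} {NA : ℝ → ℝ → Set Y → Set Γ}
    {U : Z → (C(Y, ℂ) →ₗ[ℂ] (K →L[ℂ] K))} {p : ℝ}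
    {Bd : Set K} {ms : G → Set Γ → ℝ} {A : Subgroup G} {Br : ℝ → Set Γ}
    (hp : PicF π lam W Ω) (hM : MsF lam W Ω (st mp)) (hUC : ∀ j, UC π W (Ω j) (st mp))
    (h : H859.CN.SysF mp (fun g => π g) Bd ms A Br G1 G2)
    (hleg : Leg mp (fun g => π g) (fun γ => lam γ) W)
    (he : Esc (st mp) (fun g => π g) Bd A (pw b⁻¹))
    (h𝒰 : (𝒰 : Filter ℕ) ≤ atTop)
    (hU : UFamE mp π lam W b G1 G2 bp 𝒰 NA z0 U p) (htr : ∀ z : Z, ∃ g : G, g • z0 = z)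
    (hρ : 0 < ρ) (hρ1 : ρ < 1)
    (hnc : Tendsto n (𝓝 0) (𝓝 1)) (hORB : ORBGF μ b n ρ π lam W Ω)
    (hn : ∀ O ∈ 𝓝 (1 : G), ∀ᶠ s : ℕ in atTop, ∀ x ∈ Metric.closedBall (0 : V) 1,
      (b ^ s)⁻¹ * n x * b ^ s ∈ O)
    (hsz0 : ∀ γ, 0 < sz γ) (hsz : ∀ γ, ∃ d : ℝ, 1 ≤ d ∧ ∀ y, sz (γ * y) ≤ d * sz y)
    (hS : ∀ j, SIZEG b π (Ω j) (st mp) sz)
    {I : Type} [Fintype I] {u v : I → C(Y, ℂ)}
    (hC : WCnt G1 G2 bp sz u v) (z : Z) :
    ∑ i, U z (u i) * U z (v i) = 0 := by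
  obtain ⟨g, rfl⟩ := htr z
  exact rel_twoF hp hM hUC h h hleg he he h𝒰 h𝒰 hU hU hρ hρ1 hnc hORB (ctr_same hn) hsz0 hsz hS
    hC.two g

end lim

end Vale.Agent.P092.SPC
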