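import Vale.Agent.P092.SPC.Fin
import Vale.Agent.P092.UN.StC3

/-!
P092, TEAM P, all amplifications (helper421): ICC lattices of `Sp_4(k)/Z`, `k` any local field of
characteristic different from two.
-/

set_option linter.all false

open Matrix Filter Topology

namespace Vale.Agent.P092.SPC

open Vale.Agent.P092.UN (Quo LatticeC3 TypeC3)

section tr

variable {k l : Type} [NontriviallyNormedField k] [NontriviallyNormedField l]

theorem map_J (φ : k →+* l) : (J (Fin 2) k).map φ = J (Fin 2) l := by
  ext i j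
  rcases i with i | i <;> rcases j with j | j <;> fin_cases i <;> fin_cases j <;> simp [J]

theorem map_mem (φ : k →+* l) {A : Matrix (Fin 2 ⊕ Fin 2) (Fin 2 ⊕ Fin 2) k}
    (hA : A ∈ symplecticGroup (Fin 2) k) : A.map φ ∈ symplecticGroup (Fin 2) l := by
  rw [SymplecticGroup.mem_iff] at hA ⊢
  rw [← map_J φ, ← Matrix.transpose_map, ← Matrix.map_mul, ← Matrix.map_mul, hA]

/-- the symplectic groups of two isomorphic fields -/
noncomputable def sgE (φ : k ≃+* l) : symplecticGroup (Fin 2) k ≃* symplecticGroup (Fin 2) l where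
  toFun A := ⟨A.1.map (φ : k →+* l), map_mem (φ : k →+* l) A.2⟩
  invFun A := ⟨A.1.map (φ.symm : l →+* k), map_mem (φ.symm : l →+* k) A.2⟩
  left_inv A := Subtype.ext (by ext i j; simp)
  right_inv A := Subtype.ext (by ext i j; simp)
  map_mul' A B := Subtype.ext (Matrix.map_mul (f := (φ : k →+* l)))

theorem cont_sgE {φ : k ≃+* l} (h : Continuous φ) : Continuous (sgE φ) :=
  continuous_induced_rng.2 (continuous_subtype_val.matrix_map h)

theorem cont_sgE_symm {φ : k ≃+* l} (h : Continuous φ.symm) : Continuous (sgE φ).symm :=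
  continuous_induced_rng.2 (continuous_subtype_val.matrix_map h)

end tr

theorem quo_of_equiv {S S' E : Type} [Group S] [TopologicalSpace S] [Group S']
    [TopologicalSpace S'] [Group E] [TopologicalSpace E] (e : S ≃* S') (he : Continuous e)
    (he' : Continuous e.symm) (h : Quo S E) : Quo S' E := by
  obtain ⟨f, hf, hz⟩ := h
  refine ⟨f.comp e.symm.toMonoidHom,
    hf.comp (⟨e.symm.toEquiv, he', he⟩ : S' ≃ₜ S).isQuotientMap, fun x hx => ?_⟩
  have h1 : e.symm x ∈ f.ker := hx
  have h2 := Subgroup.mem_center_iff.1 (hz h1)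
  refine Subgroup.mem_center_iff.2 fun y => ?_
  have h3 := h2 (e.symm y)
  rw [← map_mul, ← map_mul] at h3
  exact e.symm.injective h3

/-- transport to an isometrically isomorphic field -/
theorem quo_iso {k l E : Type} [NontriviallyNormedField k] [NontriviallyNormedField l] [Group E]
    [TopologicalSpace E] (φ : k ≃+* l) (h : ∀ x, ‖φ x‖ = ‖x‖)
    (hE : Quo (symplecticGroup (Fin 2) k) E) : Quo (symplecticGroup (Fin 2) l) E := by
  have c1 : Continuous φ := (AddMonoidHomClass.isometry_of_norm φ h).continuous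
  have h' : ∀ x, ‖φ.symm x‖ = ‖x‖ := fun x => by
    rw [← h, RingEquiv.apply_symm_apply]
  have c2 : Continuous φ.symm := (AddMonoidHomClass.isometry_of_norm φ.symm h').continuous
  exact quo_of_equiv (sgE φ) (cont_sgE c1) (cont_sgE_symm c2) hE

/-- **The class `LatticeC3`, all amplifications.** -/
theorem superAll_latticeC3 : ∀ (Γ : Type) [Group Γ], LatticeC3 Γ → UN.SuperAll Γ := by
  rintro Γ _ ⟨hicc, E, _, _, i, ⟨k, _, _, hk, h2, ht⟩, hi, hl⟩
  rcases hk with ⟨φ, h⟩ | ⟨φ, h⟩ | hu
  · exact SP.X.superAll_quo4 SP.X.coreAllE_pspR (quo_iso φ h ht) hicc i hi hl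
  · exact superAll_complex (quo_iso φ h ht) hicc i hi hl
  · exact SP.X.superAll_quo4 (SP.X.coreAllE_pspU hu h2) ht hicc i hi hl

end Vale.Agent.P092.SPC
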