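import Vale.Agent.P092.SPC.Fin
import Vale.Agent.P092.H458.O.Gen

/-!
P092, TEAM P, TRACK C (helper421), [OV], block (O-C): the first leg of the picture `L²(E/Γ; ℋ)` of
an irreducible system `Sys V R₁ R₂` (helper678) over an admissible source group of `Sp_4(k)`, with
the relations of second order for the letters of points, and `OverStmt E` for every admissible
source group over `Sp_4(ℂ)`.
-/

set_option linter.all false

open scoped InnerProductSpace ENNReal LinearAlgebra.Projectivization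
open Filter Topology ContinuousLinearMap MeasureTheory TopologicalSpace

namespace Vale.Agent.P092.SPC.OV

open Vale.Agent.P092.H160 Vale.Agent.P092.SR Vale.Agent.P092.SPC
open Vale.Agent.P092.RC (PG YY y0 PicF)
open Vale.Agent.P092.SP (B1 B2 Adm Lg Sh' nc_E ph_lift fin_lift inj_lift prox1_lift prox2_lift
  nis_lift1 nis_lift2 nis1_sub nis2_sub GapStmt)
open Vale.Agent.P092.SP4
open Vale.Agent.P092.SP.X (PBF HasLegFO ORBF clegs_ofO)
open Vale.Agent.P092.H933 (LeviGap LocK)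
open Vale.Agent.P092.H859.CL (st)
open Vale.Agent.P092.H34.Ind (Xset)
open Vale.Agent.P092.H71.P (r1 r2 Sh'_cont Lg_cont adm_proper spr1_sh' spr1_lg spr2_lg₀ spr2_sh'₀)
open Vale.Agent.P092.H21 Vale.Agent.P092.H21.P
open Vale.Agent.P092.H725.SN (flt_Dq Dq_le Dq)
open Vale.Agent.P092.H678.OV (Sys Hsq HTri GTri OverV OverStmt Icc)
open Vale.Agent.P092.H421.GrT (MskL sz3_exp_exp)
open Vale.Agent.P092.H458.OV (pic_of pic2_of orb_of size_of)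
open Vale.Agent.P092.SD (MsF UC)
open Vale.Agent.P092.SNT (tv_tri)
open Vale.Agent.P092.H684.Psp (PSp4)

section leg

variable {k : Type} [NontriviallyNormedField k] [ProperSpace k] [MeasurableSpace k] [BorelSpace k]
  {μ : Measure k} [μ.IsAddHaarMeasure]
  {E : Type} [Group E] [TopologicalSpace E] [IsTopologicalGroup E] [LocallyCompactSpace E]
  [SecondCountableTopology E] [T2Space E] [MeasurableSpace E] [BorelSpace E]
  {Γ : Subgroup E} [DiscreteTopology Γ] [Countable Γ] [MeasurableSpace (E ⧸ Γ)]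
  [BorelSpace (E ⧸ Γ)] {ν : Measure (E ⧸ Γ)} [IsProbabilityMeasure ν]
  (hν : ∀ g : E, ν.map (fun x => g • x) = ν)
  (hΓ : ∀ g : Γ, g ≠ 1 → Set.Infinite {y : Γ | ∃ h, y = h * g * h⁻¹})
  {ℋ : Type} [NormedAddCommGroup ℋ] [InnerProductSpace ℂ ℋ] [CompleteSpace ℋ]
  {V R₁ R₂ : Γ →* (ℋ →L[ℂ] ℋ)} (hy : Sys V R₁ R₂)
  {κ κ' : Type} [Fintype κ] [Fintype κ'] {ξ : κ → ℋ} (hT : Tri V R₁ R₂ ξ) (hh : Hon R₁ R₂ ξ)
  {ζ : κ' → ℋ} (h' : Tri R₁ V R₂ ζ)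
  {ι : S4 k →* E} {a : E →* PG k 4} {q : Γ → S4 k} {w : kˣ}

include h' in
theorem orb_S (h : Adm ι a) {b : S4 k} {n : k → S4 k} {ρ : ℝ} (h0 : 0 < ρ) (h1 : ρ < 1)
    (hn : Continuous n) (hs : H368.SN.Spr μ (ι b) (fun s => ι (n s)) ρ) :
    ORBF μ ι (H34.Ind.pi (H85.cdat ν hν) (V := V) hT.adjV) (H34.Ind.lam (H85.cdat ν hν) R₁)
      (Xset (H85.cdat ν hν) ℋ ∪ Set.range (H34.Ind.lam (H85.cdat ν hν) R₂))
      (H34.AmpE.nrm hν ξ) b n :=
  ⟨ρ, h0, h1, orb_of hν (h.cι.comp hn) hs hT h'⟩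

include hy hΓ hh h' in
/-- **The base record of the first leg of a system.** -/
theorem pbf_S (h : Adm ι a) (hw : ‖(w : k)‖ < 1) {𝒰 : Ultrafilter ℕ}
    (h𝒰 : (𝒰 : Filter ℕ) ≤ atTop) (g1 : LeviGap (ι (B1 w))) (g2 : LeviGap (ι (B2 w)))
    (hq : ∀ γ, ι (q γ) = γ) :
    PBF μ w 𝒰 ι a (H34.Ind.pi (H85.cdat ν hν) (V := V) hT.adjV)
      (H34.Ind.lam (H85.cdat ν hν) R₁)
      (Xset (H85.cdat ν hν) ℋ ∪ Set.range (H34.Ind.lam (H85.cdat ν hν) R₂))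
      (H34.AmpE.nrm hν ξ) (st (mT (H85.cdat ν hν) hT)) q := by
  haveI := nc_E h
  have hph := ph_lift h hq
  have hfin := fin_lift h hq
  have hms : MsF (H34.Ind.lam (H85.cdat ν hν) R₁)
      (Xset (H85.cdat ν hν) ℋ ∪ Set.range (H34.Ind.lam (H85.cdat ν hν) R₂))
      (H34.AmpE.nrm hν ξ) (st (mT (H85.cdat ν hν) hT)) :=
    H458.HalfT.msF_E (H85.cdat ν hν) hT hh h' hΓ (RC.nrm_ne hT.ne)
  have hM := MskL.of_msF hms
  have hB := flt_Dq (q := fun γ => (q γ).1) hph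
  have hσ : ∀ (J : ℕ) (γ : Γ), γ ∈ Dq (fun γ => (q γ).1) J → SP.nm (q γ) ≤ Real.exp J :=
    fun J γ hγ => (le_max_left _ _).trans (Dq_le (q := fun γ => (q γ).1) hph J γ hγ)
  exact
    { adm := h
      hw := hw
      h𝒰 := h𝒰
      pic := pic_of hν hy hT h'
      ms := hms
      uc := uc_T hν hT
      ph := hph
      fin := hfin
      ud := H899.T.ud_of_fin hph hfin
      orb1 := orb_S hν hT h' h (r1 w hw).1 (r1 w hw).2 Sh'_cont (spr1_sh' (adm_proper h) w)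
      orb1' := orb_S hν hT h' h (r2 w hw).1 (r2 w hw).2 Lg_cont (spr1_lg (adm_proper h) w)
      orb2 := orb_S hν hT h' h (r2 w hw).1 (r2 w hw).2 Lg_cont (spr2_lg₀ (adm_proper h) w)
      orb2' := orb_S hν hT h' h (r2 w hw).1 (r2 w hw).2 Sh'_cont (spr2_sh'₀ (adm_proper h) w)
      size1 := fun i => sz3_exp_exp hM (size_of hν hy hT hM hB hσ g1 i)
      size2 := fun i => sz3_exp_exp hM (size_of hν hy hT hM hB hσ g2 i)
      prox1 := prox1_lift h hν hq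
      prox2 := prox2_lift h hν hq
      nis1 := nis_lift1 h hν hq nis1_sub
      nis2 := nis_lift2 h hν hq nis2_sub }

include hy hΓ hh h' in
/-- **The first leg of a system, with the relations for the letters of points.** -/
theorem legFW_S (hk : LocK k) (h : Adm ι a) (hw : ‖(w : k)‖ < 1) {𝒰 : Ultrafilter ℕ}
    (h𝒰 : (𝒰 : Filter ℕ) ≤ atTop) (g1 : LeviGap (ι (B1 w))) (g2 : LeviGap (ι (B2 w)))
    (hq : ∀ γ, ι (q γ) = γ) :
    HasLegFW μ w 𝒰 ι a (H34.Ind.pi (H85.cdat ν hν) (V := V) hT.adjV)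
      (H34.Ind.lam (H85.cdat ν hν) R₁)
      (Xset (H85.cdat ν hν) ℋ ∪ Set.range (H34.Ind.lam (H85.cdat ν hν) R₂))
      (H34.AmpE.nrm hν ξ) (st (mT (H85.cdat ν hν) hT)) q := by
  have hb := pbf_S (μ := μ) hν hΓ hy hT hh h' h hw h𝒰 g1 g2 hq
  have w1 := wall1 hν hT hΓ h' hh h hk hw hb.ph hb.fin
  have w2 := wall2 hν hT hΓ h' hh h hk hw hb.ph hb.fin
  exact legFW_of hb (leg_T (H85.cdat ν hν) hT hh hΓ h')
    (slow_T (H85.cdat ν hν) hT hΓ h' hh (H43.ccont_cdat ν hν))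
    (loc2_T (H85.cdat ν hν) hT hΓ h' hh) ⟨w1.s12, w1.s21, w1.esc⟩ ⟨w2.s12, w2.s21, w2.esc⟩

end leg

/-! ### The overlap over `ℂ` -/

/-- **(O-C)** `OverStmt` for every admissible source group over `Sp_4(ℂ)`. -/
theorem overStmt_C {E : Type} [Group E] [TopologicalSpace E] [IsTopologicalGroup E]
    [LocallyCompactSpace E] [SecondCountableTopology E] [T2Space E]
    {ι : S4 ℂ →* E} {a : E →* PG ℂ 4} (h : Adm ι a) : OverStmt E := by
  haveI : NoncompactSpace E := nc_E h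
  intro Γ hΓ hicc ℋ _ _ _ V R₁ R₂ hy
  letI : MeasurableSpace E := borel _
  haveI : BorelSpace E := ⟨rfl⟩
  haveI hd : DiscreteTopology Γ := hΓ.disc
  haveI hc : Countable Γ := H790.countable_of_discrete (E := E) Γ
  letI : MeasurableSpace (E ⧸ Γ) := borel _
  haveI : BorelSpace (E ⧸ Γ) := ⟨rfl⟩
  obtain ⟨ν, hP', hν⟩ := H515.IsLattice.exists_prob (Λ := Γ) ⟨hΓ.disc, hΓ.covol⟩
  obtain ⟨κ₁, _, ξ₁, hT₁, hh₁⟩ := hy.t₁
  obtain ⟨κ₂, _, ξ₂, hT₂, hh₂⟩ := hy.t₂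
  obtain ⟨κ₃, _, ζ₁, h₁⟩ := hy.g₁
  obtain ⟨κ₄, _, ζ₂, h₂⟩ := hy.g₂
  obtain ⟨I', hI, ⟨b⟩⟩ := H264.Amp.exists_basis (H264.Amp.pars_of_tri hT₁)
  obtain ⟨x, hx0, hx1⟩ := NormedField.exists_norm_lt_one ℂ
  have hx : x ≠ 0 := norm_pos_iff.1 hx0
  have hw : ‖((Units.mk0 x hx : ℂˣ) : ℂ)‖ < 1 := hx1
  have hg : GapStmt ℂ := SP.gapStmt two_ne_zero
  have hk : LocK ℂ := LocK.cplx (RingEquiv.refl ℂ) fun _ => rfl
  have G1 := H684.Psp.leviGap_proper ι h.cι h.sur (hg _ hw).1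
  have G2 := H684.Psp.leviGap_proper ι h.cι h.sur (hg _ hw).2
  have hq : ∀ γ : Γ, ι (Function.surjInv h.sur (γ : E)) = γ := fun γ =>
    Function.surjInv_eq h.sur _
  have l1 := HasLegFW.legO (legFW_S (μ := (volume : Measure ℂ)) hν hicc hy hT₁ hh₁ h₁ hk h hw
    Nat.hyperfilter_le_atTop G1 G2 hq)
  have l2 := HasLegFW.legO (legFW_S (μ := (volume : Measure ℂ)) hν hicc hy.swap hT₂ hh₂ h₂ hk h hw
    Nat.hyperfilter_le_atTop G1 G2 hq)
  have i1 := inj_lift h hq hicc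
  obtain ⟨Q₁, Q₂, h1, h2, h12⟩ := clegs_ofO (SP.X.oneXO _ H378.C.relA) (SP.X.clsStmt _)
    (H325.xcStmtPX ℂ) (pic2_of hν hy hT₁) (tv_tri hν hT₁.adjV b hT₁) l1 l2 i1 i1
  exact H264.Amp.over_of_legs hν hT₁ (X := H34.Ind.Xset (H85.cdat ν hν) ℋ)
    (fun S hS => ⟨S, hS, rfl⟩) h1 h2 h12

/-- `OverStmt` for `PSp_4(ℂ)` -/
theorem overStmt_pspC : OverStmt (PSp4 ℂ) := overStmt_C (H714.AdmS4.adm_quo _ (H684.Psp.scc ℂ))

end Vale.Agent.P092.SPC.OV
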