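import Vale.Agent.P092.SPC.Leg
import Vale.Agent.P092.SPT.One
import Vale.Agent.P092.SPT.JCls
import Vale.Agent.P092.H325.SpXt
import Vale.Agent.P092.H261.C1h
import Vale.Agent.P092.H464.P.C2
import Vale.Agent.P092.SP.Fin

/-!
P092, TEAM P, TRACK C, all amplifications (helper421): the first half over `ℂ` from the relations
of a pair of letters (`RelA`), and `CoreAllE` from the legs with Lemma O.
-/

set_option linter.all false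

open scoped InnerProductSpace ENNReal LinearAlgebra.Projectivization ZeroAtInfty
open Filter Topology ContinuousLinearMap MeasureTheory TopologicalSpace Matrix

namespace Vale.Agent.P092.SP.X

open Vale.Agent.P092.SP
open Vale.Agent.P092.SP4
open Vale.Agent.P092.SN (ClsN TVE cleg_of)
open Vale.Agent.P092.RC (Cm TRN Moore GG PG YY y0 ampH ampH_ap ampW ampO ampW_union range_ampH
  amp_comm_iff adjV3)
open Vale.Agent.P092.H35 (sp)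
open Vale.Agent.P092.H232 (Nin)
open Vale.Agent.P092.H333.Amp
open Vale.Agent.P092.H85 (cdat)
open Vale.Agent.P092.H515.St (IsLattice LocK)
open Vale.Agent.P092.SNT (TVEF tvE_amp tv_tri cleg_unamp CoreAllE superAll_of_coreAllE)
open Vale.Agent.P092.H631.P0 (ul_of_sp i1_symm)
open Vale.Agent.P092.H616.Syn (bdd_of_UL)
open Vale.Agent.P092.H616.CH (O2 XC PC geoC)
open Vale.Agent.P092.H616.CO (RelA)

/-! ### [0] from a realisation by hermitian projections -/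

section leg

variable {k : Type} [NontriviallyNormedField k] [ProperSpace k] [MeasurableSpace k]
  {E Γ K : Type} [Group E] [TopologicalSpace E] [Group Γ] [NormedAddCommGroup K]
  [InnerProductSpace ℂ K] [CompleteSpace K]
  {μ : Measure k} {w : kˣ} {𝒰 : Ultrafilter ℕ} {ι : S4 k →* E} {a : E →* PG k 4}
  {π : E →* (K →L[ℂ] K)} {lam : Γ →* (K →L[ℂ] K)} {W : Set (K →L[ℂ] K)} {Ω : K}
  {m : Set Γ → (K →L[ℂ] K)} {q : Γ → S4 k} {n : ℕ}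
  {A : C(YY k 3, Matrix (Fin n) (Fin n) ℂ)} {P : C(LL k, Matrix (Fin n) (Fin n) ℂ)}
  {U11 : YY k 3 → (C(YY k 3, ℂ) →ₗ[ℂ] (K →L[ℂ] K))} {p11 : ℝ}
  {U12 : YY k 3 → (C(LL k, ℂ) →ₗ[ℂ] (K →L[ℂ] K))} {p12 : ℝ}
  {U21 : LL k → (C(YY k 3, ℂ) →ₗ[ℂ] (K →L[ℂ] K))} {p21 : ℝ}
  {U22 : LL k → (C(LL k, ℂ) →ₗ[ℂ] (K →L[ℂ] K))} {p22 : ℝ}

/-- **[P-0], straight**, from a realisation by hermitian projections and the relations. -/
theorem straight_cx (hG : H616.Cx.Geo A P)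
    (h : X.LegP μ w 𝒰 ι a π lam W Ω m q U11 p11 U12 p12 U21 p21 U22 p22)
    (h1 : p11 = 1) (h2 : p22 = 1) (hR : ∀ c l, on c l → H616.Cx.Rel A P (U11 c) (U22 l)) :
    ∃ Ec F, X.LegC on μ w 𝒰 ι a π lam W Ω m q (NA1 q) (NA2 q) Ec F ∧
      (∀ c f, Ec c f = U11 c f) ∧ ∀ l g, F l g = U22 l g := by
  subst h1; subst h2
  have b1 : ∀ c, H616.Syn.Bdd (U11 c) := fun c => bdd_of_UL (ul_of_sp (h.u11.ul c))
  have b2 : ∀ l, H616.Syn.Bdd (U22 l) := fun l => bdd_of_UL (ul_of_sp (h.u22.ul l))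
  have o1 : ∀ c c', U11 c 1 = U11 c' 1 := fun c c' =>
    (ul_of_sp (h.u11.ul c)).one.trans (ul_of_sp (h.u11.ul c')).one.symm
  have o2 : ∀ l l', U22 l 1 = U22 l' 1 := fun l l' =>
    (ul_of_sp (h.u22.ul l)).one.trans (ul_of_sp (h.u22.ul l')).one.symm
  refine X.legC_of_loc h.base h.u11 h.u22 h.i11 ?_ ?_ ?_
  · intro c l l' hl hl'
    exact H616.Cx.loc hG (b1 c) (b1 c) (b2 l) (b2 l') (hR c l hl) (hR c l' hl') (hR c l hl)
      (hR c l' hl') (o2 l l')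
  · intro c c' l hc hc'
    exact H616.Cx.locD hG (b2 l) (b2 l) (b1 c) (b1 c') (hR c l hc) (hR c' l hc') (hR c l hc)
      (hR c' l hc') (o1 c c')
  · intro c l hcl hd
    exact H616.Cx.loc0 hG (b1 c) (b1 c) (b2 l) (hR c l hcl) (hR c l hcl) hd
      (ul_of_sp (h.u22.ul l)).one

/-- **[P-0], flipped**, from a realisation by hermitian projections and the relations. -/
theorem flipped_cx (hG : H616.Cx.Geo A P)
    (h : X.LegP μ w 𝒰 ι a π lam W Ω m q U11 p11 U12 p12 U21 p21 U22 p22)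
    (h1 : p12 = 1) (h2 : p21 = 1) (hR : ∀ c l, on c l → H616.Cx.Rel A P (U21 l) (U12 c)) :
    ∃ Ec F, X.LegC (flip on) μ w 𝒰 ι a π lam W Ω m q (NA2 q) (NA1 q) Ec F ∧
      (∀ c f, Ec c f = U12 c f) ∧ ∀ l g, F l g = U21 l g := by
  subst h1; subst h2
  have b1 : ∀ c, H616.Syn.Bdd (U12 c) := fun c => bdd_of_UL (ul_of_sp (h.u12.ul c))
  have b2 : ∀ l, H616.Syn.Bdd (U21 l) := fun l => bdd_of_UL (ul_of_sp (h.u21.ul l))
  have o1 : ∀ c c', U12 c 1 = U12 c' 1 := fun c c' =>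
    (ul_of_sp (h.u12.ul c)).one.trans (ul_of_sp (h.u12.ul c')).one.symm
  have o2 : ∀ l l', U21 l 1 = U21 l' 1 := fun l l' =>
    (ul_of_sp (h.u21.ul l)).one.trans (ul_of_sp (h.u21.ul l')).one.symm
  refine X.legC_of_loc (IT := flip on) h.base h.u12 h.u21 ?_ ?_ ?_ ?_
  · intro c l hcl g f hn
    exact i1_symm (ul_of_sp (h.u21.ul l)) (ul_of_sp (h.u12.ul c)) (h.i12 c l hcl) f g
      (fun x hx z hz => hn z hz x hx)
  · intro c l l' hl hl'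
    exact H616.Cx.locD hG (b1 c) (b1 c) (b2 l) (b2 l') (hR c l hl) (hR c l' hl') (hR c l hl)
      (hR c l' hl') (o2 l l')
  · intro c c' l hc hc'
    exact H616.Cx.loc hG (b2 l) (b2 l) (b1 c) (b1 c') (hR c l hc) (hR c' l hc') (hR c l hc)
      (hR c' l hc') (o1 c c')
  · intro c l hcl hd
    exact H616.Cx.loc0D hG (b1 c) (b1 c) (b2 l) (hR c l hcl) (hR c l hcl) hd
      (ul_of_sp (h.u21.ul l)).one

end leg

/-! ### The first half -/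

/-- **the first half over `ℂ`** -/
theorem one_ofO [MeasurableSpace ℂ] {μ : Measure ℂ} (hP : X.PurStmt ℂ μ) (hA : RelA)
    (h1 : X.Key1Stmt ℂ μ) (h1' : X.Key1Stmt' ℂ μ) (h2 : X.Key2Stmt ℂ μ) (h2' : X.Key2Stmt' ℂ μ)
    (syn : SynStmt ℂ) (hF : FlipStmt ℂ) : X.OneStmtO μ := by
  intro E Γ K _ _ _ _ _ _ w 𝒰 ι a π lam W Ω m q h
  obtain ⟨U11, p11, U12, p12, U21, p21, U22, p22, h, o1, o2⟩ := h
  rcases hP w 𝒰 ι a π lam W Ω m q U11 p11 U12 p12 U21 p21 U22 p22 h with ⟨e1, e2⟩ | ⟨e1, e2⟩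
  · subst e1; subst e2
    obtain ⟨Ec, F, hl, -, -⟩ := straight_cx geoC h rfl rfl fun c l hcl =>
      hA (U11 c) (U22 l) (ul_of_sp (h.u11.ul c)) (ul_of_sp (h.u22.ul l)) (h.i11 c l hcl) (o1 c)
    exact ⟨Ec, F, hl, comS syn hl (h1 w 𝒰 ι a π lam W Ω m q Ec F hl)
      (h2 w 𝒰 ι a π lam W Ω m q Ec F hl)⟩
  · subst e1; subst e2
    obtain ⟨Ec, F, hl, -, -⟩ := flipped_cx geoC h rfl rfl fun c l hcl =>
      hA (U21 l) (U12 c) (ul_of_sp (h.u21.ul l)) (ul_of_sp (h.u12.ul c)) (h.i12 c l hcl) (o2 l)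
    have hn : Nontrivial K := ⟨Ω, 0, fun h0 => by
      have := h.base.pic.nΩ
      rw [h0, norm_zero] at this
      exact zero_ne_one this⟩
    exact (hF Ec F hl.pl hl.e.agr hl.f.agr (comF syn hl (h1' w 𝒰 ι a π lam W Ω m q Ec F hl)
      (h2' w 𝒰 ι a π lam W Ω m q Ec F hl))).elim

/-- the synthesis row over `ℂ` (helper336) -/
theorem syn_C : SynStmt ℂ := by
  intro K _ _ _ b l h
  have hτ : ∀ x : ℂ, ‖(RingHom.id ℂ) x‖ = ‖x‖ := fun x => rfl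
  exact ⟨H336.synS4_cc hτ b l h.com h.inc, H336.synS4_col hτ b l h.com h.inc⟩

/-- the first half over `ℂ`, from the relations and the two counts -/
theorem one_cplx [MeasurableSpace ℂ] [BorelSpace ℂ] (μ : Measure ℂ) [IsFiniteMeasureOnCompacts μ]
    [μ.IsOpenPosMeasure] (hA : RelA) (c1 : H99.P.Count1Stmt ℂ) (c2 : H99.P.Count2Stmt ℂ) :
    X.OneStmtO μ :=
  one_ofO (X.purStmt μ) hA (H99.PT.key1Stmt c1) (H99.PT.key1Stmt' c2) (H99.PT.key2Stmt c2)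
    (H99.PT.key2Stmt' c1) syn_C (flipStmt two_ne_zero)

/-- the first half over `ℂ`, for all Haar measures -/
theorem oneXO [MeasurableSpace ℂ] [BorelSpace ℂ] (μ : Measure ℂ) [μ.IsAddHaarMeasure]
    (hA : RelA) : X.OneStmtO μ :=
  one_cplx μ hA (H261.C1.count1 (.cplx (RingEquiv.refl ℂ) fun _ => rfl))
    (H464.PC.count2Stmt (.cplx (RingEquiv.refl ℂ) fun _ => rfl))

/-! ### Both legs -/

section abs

variable {E Γ K : Type} [Group E]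
  [TopologicalSpace E] [Group Γ] [NormedAddCommGroup K] [InnerProductSpace ℂ K] [CompleteSpace K]
  {ι : S4 ℂ →* E} {a : E →* PG ℂ 4} {π : E →* (K →L[ℂ] K)}
  {lam₁ lam₂ : Γ →* (K →L[ℂ] K)} {X : Set (K →L[ℂ] K)}

theorem HasLegFO.base [MeasurableSpace ℂ] {μ : Measure ℂ} {κ : Type} [Fintype κ] {w : ℂˣ}
    {𝒰 : Ultrafilter ℕ} {lam : Γ →* (K →L[ℂ] K)} {W : Set (K →L[ℂ] K)} {Ω : κ → K}
    {m : Set Γ → (K →L[ℂ] K)} {q : Γ → S4 ℂ} (h : HasLegFO μ w 𝒰 ι a π lam W Ω m q) :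
    PBF μ w 𝒰 ι a π lam W Ω m q := by
  obtain ⟨U11, p11, U12, p12, U21, p21, U22, p22, h, -, -⟩ := h
  exact h.base

/-- **Two legs of families give two commuting classical legs.** -/
theorem clegs_ofO [Countable Γ] [MeasurableSpace ℂ] [OpensMeasurableSpace ℂ] {μ : Measure ℂ}
    (hOne : SP.X.OneStmtO μ) (hCls : SP.X.ClsStmt ℂ μ) (hXC : SP.X.XCStmt ℂ)
    {κ κ₁ κ₂ : Type} [Fintype κ] [Fintype κ₁] [Fintype κ₂] {Ω : κ → K} {Ω₁ : κ₁ → K} {Ω₂ : κ₂ → K}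
    (hp : RC.Pic2F π lam₁ lam₂ X Ω) (tv : TVEF π lam₁ (X ∪ Set.range lam₂) Ω)
    {w₁ w₂ : ℂˣ} {𝒰₁ 𝒰₂ : Ultrafilter ℕ} {m₁ m₂ : Set Γ → (K →L[ℂ] K)} {q₁ q₂ : Γ → S4 ℂ}
    (l1 : HasLegFO μ w₁ 𝒰₁ ι a π lam₁ (X ∪ Set.range lam₂) Ω₁ m₁ q₁)
    (l2 : HasLegFO μ w₂ 𝒰₂ ι a π lam₂ (X ∪ Set.range lam₁) Ω₂ m₂ q₂)
    (i1 : ∀ γ, sp ℂ 4 (q₁ γ).1 = 1 → γ = 1) (i2 : ∀ γ, sp ℂ 4 (q₂ γ).1 = 1 → γ = 1) :
    ∃ Q₁ Q₂ : C₀(PG ℂ 4, ℂ) →⋆ₙₐ[ℂ] (K →L[ℂ] K),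
      H264.Cl.CLeg π lam₁ (X ∪ Set.range lam₂)
        (SN.qP (fun γ => (q₁ γ).1) l1.base.ph) Q₁ ∧
      H264.Cl.CLeg π lam₂ (X ∪ Set.range lam₁)
        (SN.qP (fun γ => (q₂ γ).1) l2.base.ph) Q₂ ∧
      ∀ ψ φ, Commute (Q₁ ψ) (Q₂ φ) := by
  obtain ⟨n₁, g₁⟩ := exists_legO_amp l1
  obtain ⟨n₂, g₂⟩ := exists_legO_amp l2
  obtain ⟨n₃, g₃⟩ := hp.leg₁.exists_amp
  obtain ⟨n₄, g₄⟩ := hp.leg₂.exists_amp
  obtain ⟨Q, _, _, ⟨jj⟩, hN⟩ := RC.exists_grp (κ ⊕ κ₁ ⊕ κ₂) (n₁ + n₂ + n₃ + n₄)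
  obtain ⟨j, -⟩ : ∃ j : κ ↪ Q, True := ⟨Function.Embedding.inl.trans jj, trivial⟩
  obtain ⟨j₁, -⟩ : ∃ j : κ₁ ↪ Q, True :=
    ⟨(Function.Embedding.inl.trans Function.Embedding.inr).trans jj, trivial⟩
  obtain ⟨j₂, -⟩ : ∃ j : κ₂ ↪ Q, True :=
    ⟨(Function.Embedding.inr.trans Function.Embedding.inr).trans jj, trivial⟩
  have L1 := g₁ Q (by omega) j₁
  have L2 := g₂ Q (by omega) j₂
  have P1 := g₃ Q (by omega) j
  have P2 := g₄ Q (by omega) j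
  have T1 : TVE (ampH Q π) (ampH Q lam₁) (ampW Q (X ∪ Set.range lam₂)) (ampO j Ω) := tvE_amp tv j
  have hM : ∀ Y ∈ SD.MM lam₂ (X ∪ Set.range lam₁), Y ∈ SD.MM lam₁ (X ∪ Set.range lam₂) := by
    rintro Y ⟨h1, h2⟩
    refine ⟨?_, fun γ => h1 _ (Or.inr ⟨γ, rfl⟩)⟩
    rintro w (hw | ⟨γ, rfl⟩)
    · exact h1 _ (Or.inl hw)
    · exact h2 γ
  have tv2 : TVEF π lam₂ (X ∪ Set.range lam₁) Ω := fun Y hY h => tv Y (hM Y hY) h
  have T2 : TVE (ampH Q π) (ampH Q lam₂) (ampW Q (X ∪ Set.range lam₁)) (ampO j Ω) := tvE_amp tv2 j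
  obtain ⟨E₁, F₁, c1⟩ := hOne w₁ 𝒰₁ ι a _ _ _ _ _ q₁ L1
  obtain ⟨E₂, F₂, c2⟩ := hOne w₂ 𝒰₂ ι a _ _ _ _ _ q₂ L2
  obtain ⟨σ₁, P, hP⟩ := hCls w₁ 𝒰₁ ι a _ _ _ _ _ q₁ E₁ F₁ c1
  obtain ⟨σ₂, R, hR⟩ := hCls w₂ 𝒰₂ ι a _ _ _ _ _ q₂ E₂ F₂ c2
  have C1 := cleg_of hP l1.base.ph i1 l1.base.fin
  have C2 := cleg_of hR l2.base.ph i2 l2.base.fin
  have hc : ∀ ψ φ, Commute (P ψ) (R φ) := by
    rw [ampW_union, ← range_ampH] at P1 P2 T1 T2 hP hR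
    refine hXC ι a (ampH Q π) (ampH Q lam₁) (ampH Q lam₂) (ampW Q X) (ampO j Ω) q₁ q₂ _ _ σ₁ σ₂
      P R l1.base.adm P1 P2 ?_ ?_ T1 T2 l1.base.ph l2.base.ph l1.base.fin l2.base.fin hP hR
    · rintro _ (⟨w, hw, rfl⟩ | ⟨f, rfl⟩)
      · rw [adjoint_amp]
        exact Or.inl ⟨_, hp.Xadj w hw, rfl⟩
      · rw [adjoint_sg]
        exact Or.inr ⟨_, rfl⟩
    · rintro _ (⟨w, hw, rfl⟩ | ⟨f, rfl⟩) g
      · rw [ampH_ap, ampH_ap, ← amp_mul, ← amp_mul]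
        exact Or.inl ⟨_, hp.XP w hw g, rfl⟩
      · have h1 : π g * π g⁻¹ = 1 := by rw [← map_mul, mul_inv_cancel, map_one]
        rw [ampH_ap, ampH_ap, amp_sg, mul_assoc, ← amp_mul, h1, amp_one, mul_one]
        exact Or.inr ⟨_, rfl⟩
  obtain ⟨P', e1, h1⟩ := cleg_unamp C1
  obtain ⟨R', e2, h2⟩ := cleg_unamp C2
  refine ⟨P', R', h1, h2, fun ψ φ => ?_⟩
  have h3 := hc ψ φ
  rw [e1, e2] at h3
  exact amp_comm_iff.1 h3

end abs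

/-! ### The concrete picture -/

section conc

open Vale.Agent.P092.SR Vale.Agent.P092.H160 Vale.Agent.P092.H103 Vale.Agent.P092.H962

/-- **Assembly.** -/
theorem coreAllE_ofO [MeasurableSpace ℂ]
    [OpensMeasurableSpace ℂ] {μ : Measure ℂ} {E : Type} [Group E] [TopologicalSpace E]
    [IsTopologicalGroup E] [LocallyCompactSpace E] [SecondCountableTopology E] [T2Space E]
    [NoncompactSpace E] {ι : S4 ℂ →* E} {a : E →* PG ℂ 4}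
    (hOne : SP.X.OneStmtO μ) (hCls : SP.X.ClsStmt ℂ μ) (hXC : SP.X.XCStmt ℂ)
    (hEx : ExStmtTO μ ι a) : CoreAllE E := by
  intro Γ hΓ hicc Λ _ _ hΛ n p hpj θ
  letI : MeasurableSpace E := borel _
  haveI : BorelSpace E := ⟨rfl⟩
  haveI hd : DiscreteTopology Γ := hΓ.disc
  haveI hc : Countable Γ := H790.countable_of_discrete (E := E) Γ
  letI : MeasurableSpace (E ⧸ Γ) := borel _
  haveI : BorelSpace (E ⧸ Γ) := ⟨rfl⟩
  obtain ⟨ν, hP', hν⟩ := H515.IsLattice.exists_prob (Λ := Γ) ⟨hΓ.disc, hΓ.covol⟩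
  have hα : AF (H103.alf θ) := H103.af_of hicc hpj θ
  obtain ⟨m, m', ξ, hT⟩ := H962.exists_tri hα hα hα hΛ
  obtain ⟨B, b, hB⟩ := H421.HsT.exists_basisHH (P := PT (H103.alf θ) (H103.alf θ) (H103.alf θ))
  have p2 := RC.pic2F_HH hν hα hα hα hicc hΛ (adjV3 hα) hT
  have tv := tv_tri hν (adjV3 hα) b hT
  obtain ⟨w, 𝒰, κ₁, κ₂, _, _, Ω₁, Ω₂, m₁, m₂, q₁, q₂, l1, l2, i1, i2⟩ :=
    hEx (Γ := Γ) hν hΓ hicc hΛ hα
  obtain ⟨Q₁, Q₂, h1, h2, h12⟩ := clegs_ofO hOne hCls hXC p2 tv l1 l2 i1 i2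
  exact H264.Amp.canonM_of_over hicc hΛ hpj θ rfl hα (H264.Amp.over_of_legs hν hT
    (X := H34.Ind.Xset (cdat ν hν) (HH (PT (H103.alf θ) (H103.alf θ) (H103.alf θ))))
    (fun S hS => ⟨S, hS, rfl⟩) h1 h2 h12)

/-- **`CoreAllE` for every admissible source group over `Sp_4(ℂ)`**, from the relations and the
first leg. -/
theorem coreAllE_admC (hA : RelA) {E : Type} [Group E] [TopologicalSpace E]
    [IsTopologicalGroup E] [LocallyCompactSpace E] [SecondCountableTopology E] [T2Space E]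
    {ι : S4 ℂ →* E} {a : E →* PG ℂ 4} (h : Adm ι a)
    (hEx : ExHalfTO (volume : Measure ℂ) ι a) : CoreAllE E := by
  haveI := nc_E h
  exact coreAllE_ofO (μ := (volume : Measure ℂ)) (oneXO _ hA) (X.clsStmt _) (H325.xcStmtPX ℂ)
    (exTO_of_half hEx)

end conc

end Vale.Agent.P092.SP.X
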