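import Vale.Agent.P092.SPC.RelG
import Vale.Agent.P092.SPC.One
import Vale.Agent.P092.H21.P.ExT
import Vale.Agent.P092.H574.W7

/-!
P092, Team P, Track C, all amplifications (helper421): the first leg of the concrete picture over
an admissible source group over `Sp_4(k)` together with the relations of second order for the
letters of points; over `ℂ` these are Lemma O.
-/

set_option linter.all false

open scoped InnerProductSpace ENNReal LinearAlgebra.Projectivization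
open Filter Topology ContinuousLinearMap MeasureTheory TopologicalSpace

namespace Vale.Agent.P092.SPC

open Vale.Agent.P092.SP
open Vale.Agent.P092.RC (Cm Moore PG YY GG y0 PicF adjV3)
open Vale.Agent.P092.SD (MsF)
open Vale.Agent.P092.SP4
open Vale.Agent.P092.SP.X (PBF LegPF HasLegF HasLegFO ExHalfTO ExStmtTO WallInF ORBF ufam_gen
  sum_one_gen ufam_incF ufam_ofF hst1F hst2F exists_unit Erg)
open Vale.Agent.P092.H933 (LocK LeviGap)
open Vale.Agent.P092.H486.Eng (UFamE GeoU)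
open Vale.Agent.P092.H486.Rel (WCnt)
open Vale.Agent.P092.H859.CL (st BB FF pw Esc Slow Leg)
open Vale.Agent.P092.H43 (Loc2)
open Vale.Agent.P092.H76.Pur (NIS Cov)
open Vale.Agent.P092.H899.T (l1 l2 bpt bln)
open Vale.Agent.P092.H616.CH (O2)

/-! ### The uniform contraction of the long root group -/

section ctr

variable {k : Type} [NontriviallyNormedField k] [ProperSpace k] {E : Type} [Group E]
  [TopologicalSpace E] {ι : S4 k →* E} {a : E →* PG k 4}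

theorem Lg_conj {b : S4 k} {d : Fin 4 → k} {w : kˣ} (hd : ∀ i, d i ≠ 0)
    (hb : b.1.1 = Matrix.diagonal d) (h0 : d 0 = ((w⁻¹ : kˣ) : k)) (h3 : d 3 = w) (s : k)
    (N : ℕ) : (b ^ N)⁻¹ * Lg s * b ^ N = Lg (s * ((w : k) * w) ^ N) := by
  refine Subtype.ext (Subtype.ext (Matrix.ext fun i j => ?_))
  rw [H899.P.conj_entry hd hb]
  by_cases hij : i = 0 ∧ j = 3
  · obtain ⟨rfl, rfl⟩ := hij
    change (d 0 ^ N)⁻¹ * s * d 3 ^ N = s * ((w : k) * w) ^ N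
    rw [h0, h3, mul_pow, Units.val_inv_eq_inv_val, inv_pow, inv_inv]
    ring
  · have h5 : ∀ t : k, (Lg t).1.1 i j = (1 : Matrix (Fin 4) (Fin 4) k) i j := by
      intro t
      change (!![1, 0, 0, t; 0, 1, 0, 0; 0, 0, 1, 0; 0, 0, 0, 1] : Matrix (Fin 4) (Fin 4) k) i j =
        (1 : Matrix (Fin 4) (Fin 4) k) i j
      fin_cases i <;> fin_cases j <;> simp at hij ⊢
    rw [h5, h5]
    by_cases h7 : i = j
    · subst h7
      rw [Matrix.one_apply_eq, mul_one, inv_mul_cancel₀ (pow_ne_zero N (hd i))]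
    · rw [Matrix.one_apply_ne h7, mul_zero, zero_mul]

/-- the walls contract the long root group, uniformly on bounded sets -/
theorem ctr_Lg (h : Adm ι a) {b : S4 k} {d : Fin 4 → k} {w : kˣ} (hw : ‖(w : k)‖ < 1)
    (hd : ∀ i, d i ≠ 0) (hb : b.1.1 = Matrix.diagonal d) (h0 : d 0 = ((w⁻¹ : kˣ) : k))
    (h3 : d 3 = w) : ∀ O ∈ 𝓝 (1 : E), ∀ᶠ s : ℕ in atTop, ∀ x ∈ Metric.closedBall (0 : k) 1,
      (ι b ^ s)⁻¹ * ι (Lg x) * ι b ^ s ∈ O := by
  intro O hO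
  have hc : Tendsto (fun x : k => ι (Lg x)) (𝓝 0) (𝓝 1) := by
    have h1 := (h.cι.comp H71.P.Lg_cont).tendsto (0 : k)
    have e : (ι ∘ Lg) (0 : k) = 1 := by
      change ι (Lg 0) = 1
      rw [H99.P.Lg_zero, map_one]
    rw [e] at h1
    exact h1
  obtain ⟨r, hr, hr'⟩ := Metric.mem_nhds_iff.1 (hc hO)
  have hw0 := norm_nonneg (w : k)
  have ht : Tendsto (fun s : ℕ => (‖(w : k)‖ * ‖(w : k)‖) ^ s) atTop (𝓝 0) :=
    tendsto_pow_atTop_nhds_zero_of_lt_one (by positivity) (by nlinarith)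
  filter_upwards [ht.eventually (gt_mem_nhds hr)] with s hs x hx
  have e : (ι b ^ s)⁻¹ * ι (Lg x) * ι b ^ s = ι (Lg (x * ((w : k) * w) ^ s)) := by
    rw [← Lg_conj hd hb h0 h3, map_mul, map_mul, map_inv, map_pow]
  rw [e]
  refine hr' ?_
  rw [mem_ball_zero_iff, norm_mul, norm_pow, norm_mul]
  have hx1 : ‖x‖ ≤ 1 := mem_closedBall_zero_iff.1 hx
  exact lt_of_le_of_lt (mul_le_of_le_one_left (by positivity) hx1) hs

/-- the one parameter group tends to the neutral element -/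
theorem Lg_lim (h : Adm ι a) : Tendsto (fun x : k => ι (Lg x)) (𝓝 0) (𝓝 1) := by
  have h1 := (h.cι.comp H71.P.Lg_cont).tendsto (0 : k)
  have e : (ι ∘ Lg) (0 : k) = 1 := by
    change ι (Lg 0) = 1
    rw [H99.P.Lg_zero, map_one]
  rw [e] at h1
  exact h1

end ctr

/-! ### One leg with the relations -/

section leg

variable {k : Type} [NontriviallyNormedField k] [ProperSpace k] [MeasurableSpace k]
  [BorelSpace k] {μ : Measure k} [IsFiniteMeasureOnCompacts μ] [μ.IsOpenPosMeasure]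
  {E Γ K κ : Type} [Group E] [TopologicalSpace E] [Group Γ]
  [NormedAddCommGroup K] [InnerProductSpace ℂ K] [CompleteSpace K] [Fintype κ]
  {ι : S4 k →* E} {a : E →* PG k 4} {π : E →* (K →L[ℂ] K)} {lam : Γ →* (K →L[ℂ] K)}
  {W : Set (K →L[ℂ] K)} {Ω : κ → K} {mp : (Γ → ℝ) → (K →L[ℂ] K)} {Bd Bf : Set K}
  {ms : E → Set Γ → ℝ} {A A' : Subgroup E} {q : Γ → S4 k} {w : kˣ} {𝒰 : Ultrafilter ℕ}

/-- the relations given by the weighted counts -/
def WRel (q : Γ → S4 k) (U : C(YY k 3, ℂ) →ₗ[ℂ] (K →L[ℂ] K)) : Prop :=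
  ∀ (n : ℕ) (u v : Fin n → C(YY k 3, ℂ)),
    WCnt (fun γ => l1 (q γ)) (fun γ => l2 (q γ)) (fun γ => bpt (q γ)) (fun γ => nm (q γ)) u v →
    ∑ i, U (u i) * U (v i) = 0

/-- the data of one leg of a family, with the relations for the letters of points -/
def HasLegFW {k : Type} [NontriviallyNormedField k] [ProperSpace k] [MeasurableSpace k]
    {E Γ K κ : Type} [Group E] [TopologicalSpace E] [Group Γ] [NormedAddCommGroup K]
    [InnerProductSpace ℂ K] [CompleteSpace K] [Fintype κ] (μ : Measure k)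
    (w : kˣ) (𝒰 : Ultrafilter ℕ) (ι : S4 k →* E) (a : E →* PG k 4) (π : E →* (K →L[ℂ] K))
    (lam : Γ →* (K →L[ℂ] K)) (W : Set (K →L[ℂ] K)) (Ω : κ → K) (m : Set Γ → (K →L[ℂ] K))
    (q : Γ → S4 k) : Prop :=
  ∃ (U11 : YY k 3 → (C(YY k 3, ℂ) →ₗ[ℂ] (K →L[ℂ] K))) (p11 : ℝ)
    (U12 : YY k 3 → (C(LL k, ℂ) →ₗ[ℂ] (K →L[ℂ] K))) (p12 : ℝ)
    (U21 : LL k → (C(YY k 3, ℂ) →ₗ[ℂ] (K →L[ℂ] K))) (p21 : ℝ)
    (U22 : LL k → (C(LL k, ℂ) →ₗ[ℂ] (K →L[ℂ] K))) (p22 : ℝ),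
    LegPF μ w 𝒰 ι a π lam W Ω m q U11 p11 U12 p12 U21 p21 U22 p22 ∧
      (∀ c, WRel q (U11 c)) ∧ ∀ l, WRel q (U21 l)

/-- **One leg**, families of vectors, with the relations for the letters of points. -/
theorem legFW_of (hb : PBF μ w 𝒰 ι a π lam W Ω (st mp) q)
    (hL : Leg mp (fun g => π g) (fun γ => lam γ) W) (hS : Slow mp (fun g => π g) Bd)
    (hloc : Loc2 mp (fun g => π g) Bd Bf) (hW1 : WallInF mp π Bd ms q (ι (B1 w)))
    (hW2 : WallInF mp π Bd ms q (ι (B2 w))) : HasLegFW μ w 𝒰 ι a π lam W Ω (st mp) q := by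
  have h := hb.adm
  haveI : IsTopologicalGroup E := h.tg
  have hw := hb.hw
  have h𝒰 := hb.h𝒰
  have hph := hb.ph
  have hfin := hb.fin
  have hp := hb.pic
  have hms := hb.ms
  have hE : Erg π lam W := hp.erg
  obtain ⟨v0, hv0⟩ := exists_unit hp
  have s11 := H486.Eng.sysF_cn hW1.s12
  have s12 := H486.Eng.sysF_cn hW1.s21
  have s21 := H486.Eng.sysF_cn hW2.s12
  have s22 := H486.Eng.sysF_cn hW2.s21
  have e1 := hW1.esc
  have e2 := hW2.esc
  have f12 : ∀ r, (FF (fun γ => l1 (q γ)) (fun γ => l2 (q γ)) r).Finite :=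
    fun r => H899.T.fin_l hfin r
  have f21 : ∀ r, (FF (fun γ => l2 (q γ)) (fun γ => l1 (q γ)) r).Finite :=
    fun r => (H899.T.fin_l hfin r).subset fun γ hγ => ⟨hγ.2, hγ.1⟩
  -- the four families
  letI aP : MulAction E (YY k 3) := actP a
  letI aL : MulAction E (LL k) := actL h
  letI gP : MulAction Γ (YY k 3) := H899.T.actP hph
  letI gL : MulAction Γ (LL k) := H899.T.actL hph
  have t1 : ∀ z : YY k 3, ∃ g : E, g • (y0 : YY k 3) = z := fun z => by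
    obtain ⟨g, hg⟩ := trans_pt (y0 : YY k 3) z
    exact ⟨ι g, (actP_ι h g _).trans hg⟩
  have t2 : ∀ z : LL k, ∃ g : E, g • (l0 : LL k) = z := fun z => by
    obtain ⟨g, hg⟩ := trans_ln (l0 : LL k) z
    exact ⟨ι g, (actL_ι h g _).trans hg⟩
  obtain ⟨U11, p11, -, -, F11⟩ := ufam_gen (Y := YY k 3) (Z := YY k 3) (z0 := y0) h𝒰 hE hv0
    (moore_p h y0)
    s11 hL (H899.T.geoU_pt hph hfin) hS hloc e1 (H899.T.domCut_pt q) t1 (hst1F h hw)
  obtain ⟨U12, p12, -, -, F12⟩ := ufam_gen (Y := LL k) (Z := YY k 3) (z0 := y0) h𝒰 hE hv0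
    (moore_p h y0)
    s12 hL (H899.T.geoU_ln hph hfin) hS hloc e1 (H899.T.domCut_ln q) t1 (hst1F h hw)
  obtain ⟨U21, p21, -, -, F21⟩ := ufam_gen (Y := YY k 3) (Z := LL k) (z0 := l0) h𝒰 hE hv0
    (moore_l h l0)
    s21 hL (H899.T.geoU_pt hph hfin) hS hloc e2 (H899.T.domCut_pt q) t2 (hst2F h hw)
  obtain ⟨U22, p22, -, -, F22⟩ := ufam_gen (Y := LL k) (Z := LL k) (z0 := l0) h𝒰 hE hv0
    (moore_l h l0)
    s22 hL (H899.T.geoU_ln hph hfin) hS hloc e2 (H899.T.domCut_ln q) t2 (hst2F h hw)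
  have x1 : ∀ (g : S4 k) (x : YY k 3), ι g • x = g • x := actP_ι h
  have x2 : ∀ (g : S4 k) (x : LL k), ι g • x = g • x := actL_ι h
  have m1 : ∀ v v' : YY k 3, Moore (ι '' {g : S4 k | g • v = v ∧ g • v' = v'}) := moore_pp' h
  have m2' : ∀ v v' : LL k, Moore (ι '' {g : S4 k | g • v = v ∧ g • v' = v'}) := moore_ll' h
  have z0 : ∀ γ, 0 < nm (q γ) := fun γ => nm_pos4 _
  have z1 : ∀ γ, ∃ d : ℝ, 1 ≤ d ∧ ∀ y, nm (q (γ * y)) ≤ d * nm (q y) := H99.P.size_trans hph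
  obtain ⟨ρ₁, r1, r1', o1⟩ := hb.orb1'
  obtain ⟨ρ₂, r2, r2', o2⟩ := hb.orb2
  refine ⟨U11, p11, U12, p12, U21, p21, U22, p22,
    { base := hb
      u11 := ?_
      u12 := ?_
      u21 := ?_
      u22 := ?_
      s1 := sum_one_gen h𝒰 hv0 s11 f12 e1 F11 F12
      s2 := sum_one_gen h𝒰 hv0 s21 f12 e2 F21 F22
      i11 := ?_
      i12 := ?_ }, ?_, ?_⟩
  · exact ufam_ofF (q := q) x1 (fun _ _ => rfl) h.sur hp F11 hb.nis1 m1 fun v v' hne =>
      gen_pp' hne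
  · exact ufam_ofF (q := q) x1 (fun _ _ => rfl) h.sur hp F12 hb.nis2 m1 fun v v' hne =>
      gen_pp' hne
  · exact ufam_ofF (q := q) x2 (fun _ _ => rfl) h.sur hp F21 hb.nis1 m2' fun v v' hne =>
      gen_ll' hne
  · exact ufam_ofF (q := q) x2 (fun _ _ => rfl) h.sur hp F22 hb.nis2 m2' fun v v' hne =>
      gen_ll' hne
  · intro c l hcl f g hfg
    obtain ⟨u, hu1, hu2⟩ := trans_flag (on_y0_l0 (k := k)) hcl
    have hov := H923.PI.ovl12 hph hb.ud (isClosed_tsupport f) (isClosed_tsupport g) hfg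
    have hI := ufam_incF h𝒰 h𝒰 hp hms s11 s22 hL hS hS e1 e2 f12 f21 F11 F22 (ι u) (ι u)
      (moore_SLg h u) (contr_SLg h u (contr_Lg1 hw)) (contr_SLg h u (contr_Lg2 hw)) f g hov
    have := hI.1
    rw [x1, x2, hu1, hu2] at this
    exact this
  · intro c l hcl f g hfg
    obtain ⟨u, hu1, hu2⟩ := trans_flag (on_y0_l0 (k := k)) hcl
    have hov := H923.PI.ovl12 hph hb.ud (isClosed_tsupport f) (isClosed_tsupport g) hfg
    have hI := ufam_incF h𝒰 h𝒰 hp hms s21 s12 hL hS hS e2 e1 f12 f21 F21 F12 (ι u) (ι u)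
      (moore_SLg h u) (contr_SLg h u (contr_Lg2 hw)) (contr_SLg h u (contr_Lg1 hw)) f g hov
    have := hI.1
    rw [x1, x2, hu1, hu2] at this
    exact this
  · intro c n u v hC
    exact rel_sameF (μ := μ) (n := fun s : k => ι (Lg s)) hp hms hb.uc s11 hL e1 h𝒰 F11 t1 r1 r1'
      (Lg_lim h) o1 (ctr_Lg h hw (H899.P.d1_ne w) (H899.P.B1_diag w) rfl rfl) z0 z1 hb.size1 hC c
  · intro l n u v hC
    exact rel_sameF (μ := μ) (n := fun s : k => ι (Lg s)) hp hms hb.uc s21 hL e2 h𝒰 F21 t2 r2 r2'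
      (Lg_lim h) o2 (ctr_Lg h hw (H899.P.d2_ne w) (H899.P.B2_diag w) rfl rfl) z0 z1 hb.size2 hC l

end leg

/-- **Lemma O** from the relations: the weighted count of helper574 -/
theorem o2_of_wrel {Γ K : Type} [Group Γ] [NormedAddCommGroup K] [InnerProductSpace ℂ K]
    [CompleteSpace K] {q : Γ → S4 ℂ} (hph : PH q) (hud : UD q)
    {U : C(YY ℂ 3, ℂ) →ₗ[ℂ] (K →L[ℂ] K)} (h : WRel q U) : O2 U := by
  intro n u v C δ hδ h1 h2
  refine h n u v fun r => ?_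
  obtain ⟨C', -, hC⟩ := H574.W.wcnt hph hud hδ h1 h2 r
  exact ⟨C', 3, hC⟩

/-- over `ℂ` the relations are Lemma O -/
theorem HasLegFW.legO {E Γ K κ : Type} [Group E] [TopologicalSpace E] [Group Γ]
    [NormedAddCommGroup K] [InnerProductSpace ℂ K] [CompleteSpace K] [Fintype κ]
    [MeasurableSpace ℂ] {μ : Measure ℂ} {w : ℂˣ} {𝒰 : Ultrafilter ℕ} {ι : S4 ℂ →* E}
    {a : E →* PG ℂ 4} {π : E →* (K →L[ℂ] K)} {lam : Γ →* (K →L[ℂ] K)} {W : Set (K →L[ℂ] K)}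
    {Ω : κ → K} {m : Set Γ → (K →L[ℂ] K)} {q : Γ → S4 ℂ}
    (h : HasLegFW μ w 𝒰 ι a π lam W Ω m q) : HasLegFO μ w 𝒰 ι a π lam W Ω m q := by
  obtain ⟨U11, p11, U12, p12, U21, p21, U22, p22, hl, o1, o2⟩ := h
  exact ⟨U11, p11, U12, p12, U21, p21, U22, p22, hl,
    fun c => o2_of_wrel hl.base.ph hl.base.ud (o1 c),
    fun l => o2_of_wrel hl.base.ph hl.base.ud (o2 l)⟩

section conc

open Vale.Agent.P092.H160 Vale.Agent.P092.SR
open Vale.Agent.P092.H103 (AF)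
open Vale.Agent.P092.H34.Ind (Xset)
open Vale.Agent.P092.H962 (HH PT V3 A3R B3R)
open Vale.Agent.P092.H21 Vale.Agent.P092.H21.P

variable {k : Type} [NontriviallyNormedField k] [ProperSpace k] [MeasurableSpace k] [BorelSpace k]
  {μ : Measure k} [μ.IsAddHaarMeasure]
  {E : Type} [Group E] [TopologicalSpace E] [IsTopologicalGroup E] [LocallyCompactSpace E]
  [SecondCountableTopology E] [T2Space E] [MeasurableSpace E] [BorelSpace E]
  {Γ : Subgroup E} [DiscreteTopology Γ] [Countable Γ] [MeasurableSpace (E ⧸ Γ)]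
  [BorelSpace (E ⧸ Γ)] {ν : Measure (E ⧸ Γ)} [IsProbabilityMeasure ν]
  (hν : ∀ g : E, ν.map (fun x => g • x) = ν)
  (hΓ : ∀ g : Γ, g ≠ 1 → Set.Infinite {y : Γ | ∃ h, y = h * g * h⁻¹})
  {Λ : Type} [Group Λ] [Countable Λ]
  (hΛ : ∀ s : Λ, s ≠ 1 → Set.Infinite {y : Λ | ∃ h, y = h * s * h⁻¹})
  {I : Type} [Fintype I] {α : Γ → (Ell2 (I × Λ) →L[ℂ] Ell2 (I × Λ))} (hα : AF α)
  {κ : Type} [Fintype κ] {ξ : κ → HH (PT α α α)}
  (hT : Tri (V3 hα hα hα) (A3R hα hα hα) (B3R hα hα hα) ξ)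
  (hh : Hon (A3R hα hα hα) (B3R hα hα hα) ξ)
  {ι : S4 k →* E} {a : E →* PG k 4} {q : Γ → S4 k} {w : kˣ}

include hΓ hΛ hh in
/-- **The first leg of the model, all `t`, with the relations for the letters of points.** -/
theorem legFW_HH (hk : LocK k) (h : Adm ι a) (hw : ‖(w : k)‖ < 1) {𝒰 : Ultrafilter ℕ}
    (h𝒰 : (𝒰 : Filter ℕ) ≤ atTop) (g1 : LeviGap (ι (B1 w))) (g2 : LeviGap (ι (B2 w)))
    (hq : ∀ γ, ι (q γ) = γ) :
    HasLegFW μ w 𝒰 ι a (H34.Ind.pi (H85.cdat ν hν) (V := V3 hα hα hα) (adjV3 hα))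
      (H34.Ind.lam (H85.cdat ν hν) (A3R hα hα hα))
      (Xset (H85.cdat ν hν) (HH (PT α α α)) ∪
        Set.range (H34.Ind.lam (H85.cdat ν hν) (B3R hα hα hα)))
      (H34.AmpE.nrm hν ξ) (st (mT (H85.cdat ν hν) hT)) q := by
  obtain ⟨m', m'', ζ, h'⟩ := H962.exists_tri' hα hα hα hΛ
  have hb := pbf_HH (μ := μ) hν hΓ hΛ hα hT hh h hw h𝒰 g1 g2 hq
  have w1 := wall1 hν hT hΓ h' hh h hk hw hb.ph hb.fin
  have w2 := wall2 hν hT hΓ h' hh h hk hw hb.ph hb.fin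
  exact legFW_of hb (leg_T (H85.cdat ν hν) hT hh hΓ h')
    (slow_T (H85.cdat ν hν) hT hΓ h' hh (H43.ccont_cdat ν hν))
    (loc2_T (H85.cdat ν hν) hT hΓ h' hh) ⟨w1.s12, w1.s21, w1.esc⟩ ⟨w2.s12, w2.s21, w2.esc⟩

end conc

/-- **The first leg over `ℂ`, all `t`, with Lemma O.** -/
theorem exHalfTO_of {E : Type} [Group E]
    [TopologicalSpace E] [IsTopologicalGroup E] [LocallyCompactSpace E]
    [SecondCountableTopology E] [T2Space E]
    {ι : S4 ℂ →* E} {a : E →* PG ℂ 4} (h : Adm ι a) (hg : GapStmt ℂ) :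
    ExHalfTO (volume : Measure ℂ) ι a := by
  intro _ _ Γ _ _ _ _ ν _ hν hΓ hicc Λ _ _ hΛ I _ α hα
  obtain ⟨x, hx0, hx1⟩ := NormedField.exists_norm_lt_one ℂ
  have hx : x ≠ 0 := norm_pos_iff.1 hx0
  have hw : ‖((Units.mk0 x hx : ℂˣ) : ℂ)‖ < 1 := hx1
  have hq : ∀ γ : Γ, ι (Function.surjInv h.sur (γ : E)) = γ := fun γ =>
    Function.surjInv_eq h.sur _
  obtain ⟨n, ξ, hT, hh⟩ := H458.Hon.hon hα hα hΛ
  exact ⟨Units.mk0 x hx, hyperfilter ℕ, Fin n, inferInstance, H34.AmpE.nrm hν ξ,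
    st (H21.mT (H85.cdat ν hν) hT), fun γ => Function.surjInv h.sur (γ : E),
    HasLegFW.legO (legFW_HH (μ := (volume : Measure ℂ)) hν hicc hΛ hα hT hh
      (LocK.cplx (RingEquiv.refl ℂ) fun _ => rfl) h hw Nat.hyperfilter_le_atTop
      (H684.Psp.leviGap_proper ι h.cι h.sur (hg _ hw).1)
      (H684.Psp.leviGap_proper ι h.cι h.sur (hg _ hw).2) hq), inj_lift h hq hicc⟩

/-- **`CoreAllE` for every admissible source group over `Sp_4(ℂ)`**, from the relations of a pair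
of letters. -/
theorem coreAllE_C (hA : H616.CO.RelA) {E : Type} [Group E]
    [TopologicalSpace E] [IsTopologicalGroup E] [LocallyCompactSpace E]
    [SecondCountableTopology E] [T2Space E]
    {ι : S4 ℂ →* E} {a : E →* PG ℂ 4} (h : Adm ι a) : SNT.CoreAllE E :=
  SP.X.coreAllE_admC hA h (exHalfTO_of h (gapStmt two_ne_zero))

end Vale.Agent.P092.SPC
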