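import Vale.Agent.P092.SPC.UnC
import Vale.Agent.P092.H378.C8

/-!
P092, TEAM P, TRACK C, all amplifications (helper421): the final statements for `Sp_4(ℂ)`. The
relations of a pair of letters are the theorem `relA` of helper378.
-/

set_option linter.all false

open Matrix Filter Topology

namespace Vale.Agent.P092.SPC

open Vale.Agent.P092.H684.Psp (PSp4)
open Vale.Agent.P092.SNT (CoreAllE)

/-- **The core statement for every admissible source group over `Sp_4(ℂ)`, all
amplifications.** -/
theorem coreAllE_complex {E : Type} [Group E] [TopologicalSpace E] [IsTopologicalGroup E]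
    [LocallyCompactSpace E] [SecondCountableTopology E] [T2Space E]
    {ι : SP4.S4 ℂ →* E} {a : E →* RC.PG ℂ 4} (h : SP.Adm ι a) : CoreAllE E :=
  coreAllE_C H378.C.relA h

/-- **The core statement of `PSp_4(ℂ)`, all amplifications.** -/
theorem coreAllE_psp : CoreAllE (PSp4 ℂ) := coreAllE_pspC H378.C.relA

/-- **ICC lattices of `Sp_4(ℂ)/Z`, all amplifications.** -/
theorem superAll_complex {E : Type} [Group E] [TopologicalSpace E]
    (hE : UN.Quo (symplecticGroup (Fin 2) ℂ) E) {Γ : Type} [Group Γ] (hicc : UN.ICC Γ)
    (i : Γ →* E) (hi : Function.Injective i) (hl : UN.IsLattice i.range) : UN.SuperAll Γ :=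
  superAll_quoC H378.C.relA hE hicc i hi hl

end Vale.Agent.P092.SPC
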