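import Vale.Agent.P092.SPT.Flip
import Vale.Agent.P092.H616.CO

/-!
P092, TEAM P, TRACK C, all amplifications (helper421): `Sp_4(ℂ)`. The letters of a leg of a finite
family of vectors together with Lemma O for the letters of points (`O2`), its amplification, its
transport along a unitary, both legs from the first one.
-/

set_option linter.all false

open scoped InnerProductSpace ENNReal LinearAlgebra.Projectivization ZeroAtInfty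
open Filter Topology ContinuousLinearMap MeasureTheory TopologicalSpace Matrix

namespace Vale.Agent.P092.SP.X

open Vale.Agent.P092.H333.Amp
open Vale.Agent.P092.SP
open Vale.Agent.P092.SP4
open Vale.Agent.P092.RC (cj cj_ap cj_comm cm_cj norm_cj adjoint_cj Cm TRN TRNF Moore GG PG YY y0
  PicF Tw adjV3 ampH ampH_ap ampW ampO)
open Vale.Agent.P092.SD (MsF UC tw_uc)
open Vale.Agent.P092.SNT (TwF twF_flip)
open Vale.Agent.P092.H35 (sp)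
open Vale.Agent.P092.H85 (cdat)
open Vale.Agent.P092.H515.St (IsLattice LocK)
open Vale.Agent.P092.H616.CH (O2 XC PC)

/-- the data of one leg over `ℂ`, picture `RC.PicX`, with Lemma O for the letters of points -/
def HasLegO {E Γ K : Type} [Group E] [TopologicalSpace E] [Group Γ] [NormedAddCommGroup K]
    [InnerProductSpace ℂ K] [CompleteSpace K] [MeasurableSpace ℂ] (μ : Measure ℂ) (w : ℂˣ)
    (𝒰 : Ultrafilter ℕ) (ι : S4 ℂ →* E) (a : E →* PG ℂ 4) (π : E →* (K →L[ℂ] K))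
    (lam : Γ →* (K →L[ℂ] K)) (W : Set (K →L[ℂ] K)) (Ω : K) (m : Set Γ → (K →L[ℂ] K))
    (q : Γ → S4 ℂ) : Prop :=
  ∃ (U11 : YY ℂ 3 → (C(YY ℂ 3, ℂ) →ₗ[ℂ] (K →L[ℂ] K))) (p11 : ℝ)
    (U12 : YY ℂ 3 → (C(LL ℂ, ℂ) →ₗ[ℂ] (K →L[ℂ] K))) (p12 : ℝ)
    (U21 : LL ℂ → (C(YY ℂ 3, ℂ) →ₗ[ℂ] (K →L[ℂ] K))) (p21 : ℝ)
    (U22 : LL ℂ → (C(LL ℂ, ℂ) →ₗ[ℂ] (K →L[ℂ] K))) (p22 : ℝ),
    X.LegP μ w 𝒰 ι a π lam W Ω m q U11 p11 U12 p12 U21 p21 U22 p22 ∧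
      (∀ c, O2 (U11 c)) ∧ ∀ l, O2 (U21 l)

/-- the data of one leg of a family over `ℂ`, with Lemma O for the letters of points -/
def HasLegFO {E Γ K κ : Type} [Group E] [TopologicalSpace E] [Group Γ] [NormedAddCommGroup K]
    [InnerProductSpace ℂ K] [CompleteSpace K] [Fintype κ] [MeasurableSpace ℂ] (μ : Measure ℂ)
    (w : ℂˣ) (𝒰 : Ultrafilter ℕ) (ι : S4 ℂ →* E) (a : E →* PG ℂ 4) (π : E →* (K →L[ℂ] K))
    (lam : Γ →* (K →L[ℂ] K)) (W : Set (K →L[ℂ] K)) (Ω : κ → K) (m : Set Γ → (K →L[ℂ] K))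
    (q : Γ → S4 ℂ) : Prop :=
  ∃ (U11 : YY ℂ 3 → (C(YY ℂ 3, ℂ) →ₗ[ℂ] (K →L[ℂ] K))) (p11 : ℝ)
    (U12 : YY ℂ 3 → (C(LL ℂ, ℂ) →ₗ[ℂ] (K →L[ℂ] K))) (p12 : ℝ)
    (U21 : LL ℂ → (C(YY ℂ 3, ℂ) →ₗ[ℂ] (K →L[ℂ] K))) (p21 : ℝ)
    (U22 : LL ℂ → (C(LL ℂ, ℂ) →ₗ[ℂ] (K →L[ℂ] K))) (p22 : ℝ),
    LegPF μ w 𝒰 ι a π lam W Ω m q U11 p11 U12 p12 U21 p21 U22 p22 ∧
      (∀ c, O2 (U11 c)) ∧ ∀ l, O2 (U21 l)

/-- from one leg to a straight leg in which everything commutes -/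
def OneStmtO [MeasurableSpace ℂ] (μ : Measure ℂ) : Prop :=
  ∀ {E Γ K : Type} [Group E] [TopologicalSpace E] [Group Γ] [NormedAddCommGroup K]
    [InnerProductSpace ℂ K] [CompleteSpace K] (w : ℂˣ) (𝒰 : Ultrafilter ℕ) (ι : S4 ℂ →* E)
    (a : E →* PG ℂ 4) (π : E →* (K →L[ℂ] K)) (lam : Γ →* (K →L[ℂ] K)) (W : Set (K →L[ℂ] K))
    (Ω : K) (m : Set Γ → (K →L[ℂ] K)) (q : Γ → S4 ℂ),
    X.HasLegO μ w 𝒰 ι a π lam W Ω m q →
    ∃ (Ec : YY ℂ 3 → (C(YY ℂ 3, ℂ) →⋆ₐ[ℂ] (K →L[ℂ] K)))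
      (F : LL ℂ → (C(LL ℂ, ℂ) →⋆ₐ[ℂ] (K →L[ℂ] K))),
      X.LegComm μ w 𝒰 ι a π lam W Ω m q Ec F

/-! ### The amplification -/

section amp

variable {E Γ K κ Q : Type} [Group E] [TopologicalSpace E] [Group Γ] [NormedAddCommGroup K]
  [InnerProductSpace ℂ K] [CompleteSpace K] [Fintype κ] [Group Q] [Fintype Q]
  {w : ℂˣ} {𝒰 : Ultrafilter ℕ} {ι : S4 ℂ →* E} {a : E →* PG ℂ 4} {π : E →* (K →L[ℂ] K)}
  {lam : Γ →* (K →L[ℂ] K)} {W : Set (K →L[ℂ] K)} {Ω : κ → K} {m : Set Γ → (K →L[ℂ] K)}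
  {q : Γ → S4 ℂ}

/-- amplification as an additive map -/
noncomputable def ampA (Q K : Type) [Group Q] [Fintype Q] [NormedAddCommGroup K]
    [InnerProductSpace ℂ K] [CompleteSpace K] : (K →L[ℂ] K) →+ (KT Q K →L[ℂ] KT Q K) where
  toFun := H333.Amp.amp
  map_zero' := amp_zero
  map_add' := amp_add

theorem o2_amp {U : C(YY ℂ 3, ℂ) →ₗ[ℂ] (K →L[ℂ] K)} (h : O2 U) : O2 (ampU Q U) := by
  intro r f g C δ hδ h1 h2
  have e : ∀ i, ampU Q U (f i) * ampU Q U (g i) = ampA Q K (U (f i) * U (g i)) := fun i => by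
    rw [ampU_ap, ampU_ap]
    exact (amp_mul _ _).symm
  rw [Finset.sum_congr rfl fun i _ => e i, ← map_sum, h r f g C δ hδ h1 h2, map_zero]

/-- the amplified leg has one vector, with Lemma O -/
theorem exists_legO_amp [MeasurableSpace ℂ] [OpensMeasurableSpace ℂ] {μ : Measure ℂ}
    (h : HasLegFO μ w 𝒰 ι a π lam W Ω m q) :
    ∃ n : ℕ, ∀ (Q : Type) [Group Q] [Fintype Q], n ≤ Fintype.card Q → ∀ j : κ ↪ Q,
      X.HasLegO μ w 𝒰 ι a (ampH Q π) (ampH Q lam) (ampW Q W) (ampO j Ω)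
        (fun S => H333.Amp.amp (Q := Q) (m S)) q := by
  obtain ⟨U11, p11, U12, p12, U21, p21, U22, p22, h, h1, h2⟩ := h
  obtain ⟨n, hn⟩ := h.base.pic.exists_amp
  exact ⟨n, fun Q _ _ hQ j => ⟨_, p11, _, p12, _, p21, _, p22, leg_amp h j (hn Q hQ j),
    fun c => o2_amp (h1 c), fun l => o2_amp (h2 l)⟩⟩

end amp

/-! ### Transport -/

section tw

variable {K K' κ : Type} [Fintype κ] [NormedAddCommGroup K] [InnerProductSpace ℂ K]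
  [CompleteSpace K] [NormedAddCommGroup K'] [InnerProductSpace ℂ K'] [CompleteSpace K']
  {u : K ≃ₗᵢ[ℂ] K'} {E Γ : Type} [Group E] [TopologicalSpace E] [Group Γ]
  {π : E →* (K →L[ℂ] K)} {lam : Γ →* (K →L[ℂ] K)}
  {W : Set (K →L[ℂ] K)} {Ω : κ → K} {π' : E →* (K' →L[ℂ] K')} {lam' : Γ →* (K' →L[ℂ] K')}
  {W' : Set (K' →L[ℂ] K')} {Ω' : κ → K'} {w : ℂˣ} {q : Γ → S4 ℂ} {𝒰 : Ultrafilter ℕ}
  {m : Set Γ → (K →L[ℂ] K)} {ι : S4 ℂ →* E} {a : E →* PG ℂ 4}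

/-- **Transport of the data of a leg.** -/
theorem tw_hasLegFO [MeasurableSpace ℂ] {μ : Measure ℂ} (t : TwF u π lam W Ω π' lam' W' Ω')
    (h : HasLegFO μ w 𝒰 ι a π lam W Ω m q) :
    HasLegFO μ w 𝒰 ι a π' lam' W' Ω' (fun S => cj u (m S)) q := by
  obtain ⟨U11, p11, U12, p12, U21, p21, U22, p22, h, h1, h2⟩ := h
  exact ⟨_, p11, _, p12, _, p21, _, p22, tw_legPF t h, fun c => H616.CO.tw_O2 u (h1 c),
    fun l => H616.CO.tw_O2 u (h2 l)⟩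

end tw

/-! ### The concrete picture -/

section half

open Vale.Agent.P092.SR Vale.Agent.P092.H160 Vale.Agent.P092.H103 Vale.Agent.P092.H962
open Vale.Agent.P092.SDT (sT sT_sq sT_adj sT_V sT_A sT_B)

/-- the first leg of the concrete picture over a source group `E`, all amplifications, with
Lemma O. The family `Ω` is free. -/
def ExHalfTO [MeasurableSpace ℂ] (μ : Measure ℂ) {E : Type} [Group E] [TopologicalSpace E]
    [IsTopologicalGroup E] [LocallyCompactSpace E] [SecondCountableTopology E] [T2Space E]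
    (ι : S4 ℂ →* E) (a : E →* PG ℂ 4) : Prop :=
  ∀ [MeasurableSpace E] [BorelSpace E] {Γ : Subgroup E} [DiscreteTopology Γ] [Countable Γ]
    [MeasurableSpace (E ⧸ Γ)] [BorelSpace (E ⧸ Γ)] {ν : Measure (E ⧸ Γ)}
    [IsProbabilityMeasure ν] (hν : ∀ g : E, ν.map (fun x => g • x) = ν)
    (_ : IsLattice Γ) (_ : ∀ g : Γ, g ≠ 1 → Set.Infinite {y : Γ | ∃ h, y = h * g * h⁻¹})
    {Λ : Type} [Group Λ] [Countable Λ]
    (_ : ∀ g : Λ, g ≠ 1 → Set.Infinite {y : Λ | ∃ h, y = h * g * h⁻¹})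
    {I : Type} [Fintype I] {α : Γ → (Ell2 (I × Λ) →L[ℂ] Ell2 (I × Λ))} (hα : AF α),
    ∃ (w : ℂˣ) (𝒰 : Ultrafilter ℕ) (κ : Type) (_ : Fintype κ)
      (Ω : κ → Lp (HH (PT α α α)) 2 (cdat ν hν).μ)
      (m : Set Γ → (Lp (HH (PT α α α)) 2 (cdat ν hν).μ →L[ℂ]
        Lp (HH (PT α α α)) 2 (cdat ν hν).μ)) (q : Γ → S4 ℂ),
      HasLegFO μ w 𝒰 ι a (H34.Ind.pi (cdat ν hν) (V := V3 hα hα hα) (adjV3 hα))
        (H34.Ind.lam (cdat ν hν) (A3R hα hα hα))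
        (H34.Ind.Xset (cdat ν hν) (HH (PT α α α)) ∪
          Set.range (H34.Ind.lam (cdat ν hν) (B3R hα hα hα))) Ω m q ∧
      (∀ γ, sp ℂ 4 (q γ).1 = 1 → γ = 1)

/-- the concrete picture over a source group `E`, all amplifications: both legs, with Lemma O -/
def ExStmtTO [MeasurableSpace ℂ] (μ : Measure ℂ) {E : Type} [Group E] [TopologicalSpace E]
    [IsTopologicalGroup E] [LocallyCompactSpace E] [SecondCountableTopology E] [T2Space E]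
    (ι : S4 ℂ →* E) (a : E →* PG ℂ 4) : Prop :=
  ∀ [MeasurableSpace E] [BorelSpace E] {Γ : Subgroup E} [DiscreteTopology Γ] [Countable Γ]
    [MeasurableSpace (E ⧸ Γ)] [BorelSpace (E ⧸ Γ)] {ν : Measure (E ⧸ Γ)}
    [IsProbabilityMeasure ν] (hν : ∀ g : E, ν.map (fun x => g • x) = ν)
    (_ : IsLattice Γ) (_ : ∀ g : Γ, g ≠ 1 → Set.Infinite {y : Γ | ∃ h, y = h * g * h⁻¹})
    {Λ : Type} [Group Λ] [Countable Λ]
    (_ : ∀ g : Λ, g ≠ 1 → Set.Infinite {y : Λ | ∃ h, y = h * g * h⁻¹})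
    {I : Type} [Fintype I] {α : Γ → (Ell2 (I × Λ) →L[ℂ] Ell2 (I × Λ))} (hα : AF α),
    ∃ (w : ℂˣ) (𝒰 : Ultrafilter ℕ) (κ₁ κ₂ : Type) (_ : Fintype κ₁) (_ : Fintype κ₂)
      (Ω₁ : κ₁ → Lp (HH (PT α α α)) 2 (cdat ν hν).μ) (Ω₂ : κ₂ → Lp (HH (PT α α α)) 2 (cdat ν hν).μ)
      (m₁ m₂ : Set Γ → (Lp (HH (PT α α α)) 2 (cdat ν hν).μ →L[ℂ]
        Lp (HH (PT α α α)) 2 (cdat ν hν).μ)) (q₁ q₂ : Γ → S4 ℂ),
      HasLegFO μ w 𝒰 ι a (H34.Ind.pi (cdat ν hν) (V := V3 hα hα hα) (adjV3 hα))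
        (H34.Ind.lam (cdat ν hν) (A3R hα hα hα))
        (H34.Ind.Xset (cdat ν hν) (HH (PT α α α)) ∪
          Set.range (H34.Ind.lam (cdat ν hν) (B3R hα hα hα))) Ω₁ m₁ q₁ ∧
      HasLegFO μ w 𝒰 ι a (H34.Ind.pi (cdat ν hν) (V := V3 hα hα hα) (adjV3 hα))
        (H34.Ind.lam (cdat ν hν) (B3R hα hα hα))
        (H34.Ind.Xset (cdat ν hν) (HH (PT α α α)) ∪
          Set.range (H34.Ind.lam (cdat ν hν) (A3R hα hα hα))) Ω₂ m₂ q₂ ∧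
      (∀ γ, sp ℂ 4 (q₁ γ).1 = 1 → γ = 1) ∧ (∀ γ, sp ℂ 4 (q₂ γ).1 = 1 → γ = 1)

/-- **The second leg is the flip of the first one.** -/
theorem exTO_of_half [MeasurableSpace ℂ] {μ : Measure ℂ} {E : Type} [Group E]
    [TopologicalSpace E] [IsTopologicalGroup E] [LocallyCompactSpace E]
    [SecondCountableTopology E] [T2Space E] {ι : S4 ℂ →* E} {a : E →* PG ℂ 4}
    (h : ExHalfTO μ ι a) : ExStmtTO μ ι a := by
  intro _ _ Γ _ _ _ _ ν _ hν hΓ hicc Λ _ _ hΛ I _ α hα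
  obtain ⟨w, 𝒰, κ, iκ, Ω, m, q, l1, h1⟩ := h (Γ := Γ) hν hΓ hicc hΛ hα
  exact ⟨w, 𝒰, κ, κ, iκ, iκ, Ω, _, m, _, q, q, l1,
    tw_hasLegFO (twF_flip hν (sT_sq hα) (sT_adj hα) (sT_V hα) (sT_A hα) (sT_B hα) (adjV3 hα) Ω) l1,
    h1, h1⟩

end half

end Vale.Agent.P092.SP.X
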