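import Vale.Agent.P092.H486.RelE
import Vale.Agent.P092.SPT.EngF
import Vale.Agent.P092.SNT.Amp

/-!
P092, Team P, Track C, all amplifications (helper421): the relations between the limit maps at one
place (H486/RelA..RelE of helper486) for a picture with a finite family of vectors, part 1: trace,
growth estimate.
-/

set_option linter.all false

open scoped InnerProductSpace Pointwise ENNReal
open Filter Topology ContinuousLinearMap TopologicalSpace MeasureTheory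

namespace Vale.Agent.P092.SPC

open Vale.Agent.P092.H859.CL
open Vale.Agent.P092.H553 (ind ind_nonneg ind_le_one abs_ind_le ind_pos ind_neg)
open Vale.Agent.P092.RC (Moore Cm TRN TRNF PicF)
open Vale.Agent.P092.SD (Ms MsF UC)
open Vale.Agent.P092.SNT (ORBGF)
open Vale.Agent.P092.SP.X (ms_wk)
open Vale.Agent.P092.H494.PI (Dg cm_mul cm_adj cm_conj unitary_norm ms_lam ms_om ms_parseval enorm_sq)
open Vale.Agent.P092.H486.Eng (dg_mc)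
open Vale.Agent.P092.H486.Rel (cm_sum XX XX_norm XX_move XX_cm mc_om trn_lam uc_fn)
open Vale.Agent.P092.H790.CTA (ORBG SIZEG)

section tr

variable {G Γ K κ : Type} [Group G] [TopologicalSpace G] [Group Γ] [NormedAddCommGroup K]
  [InnerProductSpace ℂ K] [CompleteSpace K] [Fintype κ] {π : G →* (K →L[ℂ] K)}
  {lam : Γ →* (K →L[ℂ] K)} {W : Set (K →L[ℂ] K)} {Ω : κ → K} {m : Set Γ → (K →L[ℂ] K)}

/-- the sum of the squares of the norms of the family -/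
theorem sum_enorm (hp : PicF π lam W Ω) : ∑ i, ‖Ω i‖ₑ ^ 2 = 1 := by
  calc ∑ i, ‖Ω i‖ₑ ^ 2 = ∑ i, ENNReal.ofReal (‖Ω i‖ ^ 2) :=
        Finset.sum_congr rfl fun i _ => enorm_sq _
    _ = ENNReal.ofReal (∑ i, ‖Ω i‖ ^ 2) :=
        (ENNReal.ofReal_sum_of_nonneg fun i _ => sq_nonneg _).symm
    _ = 1 := by rw [hp.nΩ, ENNReal.ofReal_one]

/-- the vectors of the family have norm at most one -/
theorem norm_fam (hp : PicF π lam W Ω) (i : κ) : ‖Ω i‖ ≤ 1 := by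
  have h1 : ‖Ω i‖ ^ 2 ≤ ∑ j, ‖Ω j‖ ^ 2 :=
    Finset.single_le_sum (f := fun j => ‖Ω j‖ ^ 2) (fun _ _ => sq_nonneg _) (Finset.mem_univ i)
  rw [hp.nΩ] at h1
  have h2 := norm_nonneg (Ω i)
  nlinarith

/-- the trace of a sum of products, one vector -/
theorem trn_sum1 (hP : ∀ g, adjoint (π g) = π g⁻¹) (hL : ∀ γ, adjoint (lam γ) = lam γ⁻¹)
    (hcomm : ∀ g γ, π g * lam γ = lam γ * π g) {ω : K}
    (hM : Ms lam W ω m) {ι : Type} (s : Finset ι) {f g : ι → Γ → ℂ} {X Y : ι → (K →L[ℂ] K)}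
    (hX : ∀ i, Dg m (f i) (X i)) (hY : ∀ i γ, Y i (lam γ ω) = g i γ • lam γ ω)
    {c : ℝ≥0∞} (hc : ∀ ξ, ∑' γ, ‖∑ i ∈ s, g i γ * f i (γ * ξ)‖ₑ ^ 2 ≤ c) (v z : G) :
    TRN lam ω (∑ i ∈ s, π v * (X i * π z * Y i)) ≤ c * ‖ω‖ₑ ^ 2 := by
  have e3 : ∀ γ, ‖(∑ i ∈ s, π v * (X i * π z * Y i)) (lam γ ω)‖ₑ ^ 2 =
      ∑' ξ, ‖∑ i ∈ s, g i γ * f i (γ * ξ)‖ₑ ^ 2 * ‖m {ξ} (π z ω)‖ₑ ^ 2 := fun γ => by
    have h1 : ‖(∑ i ∈ s, π v * (X i * π z * Y i)) (lam γ ω)‖ₑ =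
        ‖(∑ i ∈ s, g i γ • X i) (lam γ (π z ω))‖ₑ := by
      have e4 : (∑ i ∈ s, π v * (X i * π z * Y i)) (lam γ ω) =
          π v ((∑ i ∈ s, g i γ • X i) (lam γ (π z ω))) := by
        rw [ContinuousLinearMap.sum_apply, ContinuousLinearMap.sum_apply, map_sum]
        refine Finset.sum_congr rfl fun i _ => ?_
        change π v (X i (π z (Y i (lam γ ω)))) = π v (g i γ • X i (lam γ (π z ω)))
        rw [hY i γ, map_smul, map_smul]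
        congr 3
        exact congrArg (fun T : K →L[ℂ] K => T ω) (hcomm z γ)
      rw [e4, ← ofReal_norm_eq_enorm, unitary_norm hP, ofReal_norm_eq_enorm]
    rw [h1, (H486.Rel.Dg.sum (fun i => g i γ) (fun i _ => hX i)).norm_sq hM,
      ← (Equiv.mulLeft γ).tsum_eq]
    refine tsum_congr fun ξ => ?_
    have h2 : ‖m {γ * ξ} (lam γ (π z ω))‖ₑ = ‖m {ξ} (π z ω)‖ₑ := by
      change ‖(m {γ * ξ} * lam γ) (π z ω)‖ₑ = _
      rw [ms_lam hM]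
      change ‖lam γ (m {ξ} (π z ω))‖ₑ = _
      rw [← ofReal_norm_eq_enorm, unitary_norm hL, ofReal_norm_eq_enorm]
    simp only [Equiv.coe_mulLeft]
    rw [h2]
  rw [TRN, tsum_congr e3, ENNReal.tsum_comm]
  calc ∑' ξ, ∑' γ, ‖∑ i ∈ s, g i γ * f i (γ * ξ)‖ₑ ^ 2 * ‖m {ξ} (π z ω)‖ₑ ^ 2
      = ∑' ξ, (∑' γ, ‖∑ i ∈ s, g i γ * f i (γ * ξ)‖ₑ ^ 2) * ‖m {ξ} (π z ω)‖ₑ ^ 2 :=
        tsum_congr fun ξ => ENNReal.tsum_mul_right
    _ ≤ ∑' ξ, c * ‖m {ξ} (π z ω)‖ₑ ^ 2 := by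
        refine ENNReal.tsum_le_tsum fun ξ => ?_
        gcongr
        exact hc ξ
    _ = c * ‖π z ω‖ₑ ^ 2 := by rw [ENNReal.tsum_mul_left, ms_parseval hM]
    _ = c * ‖ω‖ₑ ^ 2 := by rw [enorm_sq, unitary_norm hP, ← enorm_sq]

/-- **The trace of a sum of products**, families. -/
theorem trn_sumF (hp : PicF π lam W Ω) (hM : MsF lam W Ω m) {ι : Type} (s : Finset ι)
    {f g : ι → Γ → ℂ} {X Y : ι → (K →L[ℂ] K)}
    (hX : ∀ i, Dg m (f i) (X i)) (hY : ∀ i j γ, Y i (lam γ (Ω j)) = g i γ • lam γ (Ω j))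
    (hXW : ∀ i, Cm W (X i)) (hYW : ∀ i, Cm W (Y i)) {c : ℝ≥0∞}
    (hc : ∀ ξ, ∑' γ, ‖∑ i ∈ s, g i γ * f i (γ * ξ)‖ₑ ^ 2 ≤ c) (x y : G) :
    TRNF lam Ω (∑ i ∈ s, (π x⁻¹ * X i * π x) * (π y⁻¹ * Y i * π y)) ≤ c := by
  have hcX : ∀ i, Cm W (π x⁻¹ * X i * π x) := fun i => by
    have := cm_conj hp.WP (hXW i) x⁻¹
    rwa [inv_inv] at this
  have hcY : ∀ i, Cm W (π y⁻¹ * Y i * π y) := fun i => by
    have := cm_conj hp.WP (hYW i) y⁻¹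
    rwa [inv_inv] at this
  rw [← hp.tr_conj _ (cm_sum fun i _ => cm_mul (hcX i) (hcY i)) y]
  have e2 : π y * (∑ i ∈ s, (π x⁻¹ * X i * π x) * (π y⁻¹ * Y i * π y)) * π y⁻¹ =
      ∑ i ∈ s, π (y * x⁻¹) * (X i * π (x * y⁻¹) * Y i) := by
    have e : π y * π y⁻¹ = 1 := by rw [← map_mul, mul_inv_cancel, map_one]
    rw [Finset.mul_sum, Finset.sum_mul]
    refine Finset.sum_congr rfl fun i _ => ?_
    rw [map_mul π y, map_mul π x]
    calc _ = π y * π x⁻¹ * (X i * (π x * π y⁻¹) * Y i) * (π y * π y⁻¹) := by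
          simp only [mul_assoc]
      _ = _ := by rw [e, mul_one]
  rw [e2, TRNF]
  have h1 : ∀ j, TRN lam (Ω j) (∑ i ∈ s, π (y * x⁻¹) * (X i * π (x * y⁻¹) * Y i)) ≤
      c * ‖Ω j‖ₑ ^ 2 := by
    intro j
    by_cases h0 : Ω j = 0
    · rw [h0, TRN]
      simp
    · obtain ⟨W', hW'⟩ := ms_wk hM (hM.om j) h0
      exact trn_sum1 hp.adjP hp.adjL hp.comm hW' s hX (fun i γ => hY i j γ) hc _ _
  refine (Finset.sum_le_sum fun j _ => h1 j).trans ?_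
  rw [← Finset.mul_sum, sum_enorm hp, mul_one]

/-- the trace is invariant under conjugation by `lam` -/
theorem trn_lamF (γ : Γ) (hL : ∀ γ, adjoint (lam γ) = lam γ⁻¹) (T : K →L[ℂ] K) :
    TRNF lam Ω (lam γ⁻¹ * T * lam γ) = TRNF lam Ω T := by
  rw [TRNF, TRNF]
  exact Finset.sum_congr rfl fun i _ => trn_lam γ hL T

end tr

section uc

variable {G Γ K : Type} [Group G] [TopologicalSpace G] [Group Γ] [NormedAddCommGroup K]
  [InnerProductSpace ℂ K] [CompleteSpace K] {π : G →* (K →L[ℂ] K)} {lam : Γ →* (K →L[ℂ] K)}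
  {W : Set (K →L[ℂ] K)} {ω : K} {mp : (Γ → ℝ) → (K →L[ℂ] K)}

/-- (UC) for complex functions, a vector of norm at most one -/
theorem uc_fn1 (hf : Fn mp) (hpi : ∀ g ξ, ‖π g ξ‖ = ‖ξ‖) (hω : ‖ω‖ ≤ 1)
    (hUC : UC π W ω (st mp)) {δ : ℝ} (hδ : 0 < δ) : ∀ᶠ g in 𝓝 (1 : G), ∀ F : Γ → ℂ,
    (∀ x, ‖F x‖ ≤ 1) → ∀ B, Cm W B → ‖B‖ ≤ 1 → ∀ h,
      ‖(mc mp F * π g - π g * mc mp F) (B (π h ω))‖ ≤ δ := by
  by_cases h0 : ω = 0
  · refine Eventually.of_forall fun g F _ B _ _ h => ?_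
    rw [h0, map_zero, map_zero, map_zero, norm_zero]
    exact hδ.le
  · have hn : 0 < ‖ω‖ := norm_pos_iff.2 h0
    have hnc : ((‖ω‖ : ℝ) : ℂ) ≠ 0 := by exact_mod_cast hn.ne'
    obtain ⟨v, hv⟩ : ∃ v : K, v = ((‖ω‖ : ℝ) : ℂ)⁻¹ • ω := ⟨_, rfl⟩
    have hv1 : ‖v‖ = 1 := by
      rw [hv, norm_smul, norm_inv, Complex.norm_real, norm_norm, inv_mul_cancel₀ hn.ne']
    have hωv : ω = ((‖ω‖ : ℝ) : ℂ) • v := by rw [hv, smul_inv_smul₀ hnc]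
    have hUC' : UC π W v (st mp) := by
      intro ε hε
      filter_upwards [hUC (ε * ‖ω‖) (by positivity)] with g hg S B hB hB1 h
      have h1 := hg S B hB hB1 h
      have e : (st mp S * π g - π g * st mp S) (B (π h v)) = ((‖ω‖ : ℝ) : ℂ)⁻¹ •
          (st mp S * π g - π g * st mp S) (B (π h ω)) := by
        rw [hv]
        simp only [map_smul]
      rw [e, norm_smul, norm_inv, Complex.norm_real, norm_norm, inv_mul_le_iff₀ hn]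
      rw [mul_comm] at h1
      exact h1
    filter_upwards [uc_fn hf hpi hv1 hUC' hδ] with g hg F hF B hB hB1 h
    have h1 := hg F hF B hB hB1 h
    have e : (mc mp F * π g - π g * mc mp F) (B (π h ω)) = ((‖ω‖ : ℝ) : ℂ) •
        (mc mp F * π g - π g * mc mp F) (B (π h v)) := by
      conv_lhs => rw [hωv]
      simp only [map_smul]
    rw [e, norm_smul, Complex.norm_real, norm_norm]
    exact (mul_le_of_le_one_left (norm_nonneg _) hω).trans h1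

end uc

section est

variable {G Γ K V κ : Type} [Group G] [TopologicalSpace G] [IsTopologicalGroup G] [Group Γ]
  [NormedAddCommGroup K] [InnerProductSpace ℂ K] [CompleteSpace K] [Fintype κ]
  {π : G →* (K →L[ℂ] K)}
  {lam : Γ →* (K →L[ℂ] K)} {W : Set (K →L[ℂ] K)} {Ω : κ → K} {mp : (Γ → ℝ) → (K →L[ℂ] K)}
  [NormedAddCommGroup V] [ProperSpace V] [MeasurableSpace V] [BorelSpace V] {μ : Measure V}
  [IsFiniteMeasureOnCompacts μ] [μ.IsOpenPosMeasure] {b b' : G} {n : V → G} {ρ : ℝ}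

theorem mc_omF (hM : MsF lam W Ω (st mp)) (hf : Fn mp) {F : Γ → ℂ} {C : ℝ}
    (hF : ∀ g, ‖F g‖ ≤ C) (j : κ) (γ : Γ) :
    mc mp F (lam γ (Ω j)) = F γ • lam γ (Ω j) := by
  by_cases h0 : Ω j = 0
  · rw [h0, map_zero, map_zero, smul_zero]
  · obtain ⟨W', hW'⟩ := ms_wk hM (hM.om j) h0
    exact mc_om hW' hf hF γ

theorem XX_trnF {ι : Type} [Fintype ι] (hp : PicF π lam W Ω) (hM : MsF lam W Ω (st mp))
    (hleg : Leg mp (fun g => π g) (fun γ => lam γ) W)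
    (hf : Fn mp) (hR : Rep fun g => π g) {M : ℝ} {F F' : ι → Γ → ℂ} (hF : ∀ i x, ‖F i x‖ ≤ M)
    (hF' : ∀ i x, ‖F' i x‖ ≤ M) (w : G) {c : ℝ≥0∞}
    (hc : ∀ ξ, ∑' γ, ‖∑ i, F' i γ * F i (γ * ξ)‖ₑ ^ 2 ≤ c) :
    TRNF lam Ω (XX mp π w F F') ≤ c := by
  have h := trn_sumF hp hM Finset.univ
    (X := fun i => mc mp (F i)) (Y := fun i => mc mp (F' i)) (f := F) (g := F')
    (fun i => dg_mc hf (hF i)) (fun i j γ => mc_omF hM hf (hF' i) j γ)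
    (fun i w' hw' => (hleg.WmC hf hw' (hF i)).symm)
    (fun i w' hw' => (hleg.WmC hf hw' (hF' i)).symm) hc 1 w
  have e : XX mp π w F F' = ∑ i, (π 1⁻¹ * mc mp (F i) * π 1) * (π w⁻¹ * mc mp (F' i) * π w) := by
    rw [XX]
    refine Finset.sum_congr rfl fun i _ => ?_
    rw [inv_one, map_one, one_mul, mul_one]
    rfl
  rw [e]
  exact h

/-- **The growth estimate**, families. -/
theorem estF (hp : PicF π lam W Ω) (hM : MsF lam W Ω (st mp))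
    (hleg : Leg mp (fun g => π g) (fun γ => lam γ) W)
    (hf : Fn mp) (hR : Rep fun g => π g) (j₀ : κ) (hUC : UC π W (Ω j₀) (st mp)) (hρ : 0 ≤ ρ)
    (hnc : Tendsto n (𝓝 0) (𝓝 1)) (hORB : ORBGF μ b n ρ π lam W Ω)
    (hctr : ∀ N : ℕ, ∀ O ∈ 𝓝 (1 : G), ∀ᶠ s : ℕ in atTop, ∀ x ∈ Metric.closedBall (0 : V) 1,
      (b' ^ s)⁻¹ * (b ^ N * n x * (b ^ N)⁻¹) * b' ^ s ∈ O)
    (ι : Type) [Fintype ι] {M : ℝ} (hM1 : 1 ≤ M) {ε : ℝ} (hε : 0 < ε) :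
    ∃ δ > 0, ∀ N : ℕ, ∀ᶠ s : ℕ in atTop, ∀ (γ : Γ) (F F' : ι → Γ → ℂ),
      (∀ i x, ‖F i x‖ ≤ M) → (∀ i x, ‖F' i x‖ ≤ M) → ∀ c : ℝ≥0∞,
      (∀ ξ, ∑' γ, ‖∑ i, F' i γ * F i (γ * ξ)‖ₑ ^ 2 ≤ c) →
      ENNReal.ofReal (ρ ^ N) * c ≤ ENNReal.ofReal δ →
      ‖XX mp π ((b' ^ s)⁻¹ * b ^ N) F F' (lam γ (π (b ^ N)⁻¹ (Ω j₀)))‖ ≤ ε := by
  have hpi : ∀ g ξ, ‖π g ξ‖ = ‖ξ‖ := fun g ξ => unitary_norm hp.adjP g ξ
  have hM0 : 0 < M := by linarith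
  obtain ⟨L, hLdef⟩ : ∃ L : ℝ, L = Fintype.card ι * M ^ 2 + 1 := ⟨_, rfl⟩
  have hL1 : 1 ≤ L := by rw [hLdef]; nlinarith [mul_nonneg (Nat.cast_nonneg (α := ℝ) (Fintype.card ι)) (sq_nonneg M)]
  have hL0 : 0 < L := by linarith
  have hcL : (Fintype.card ι : ℝ) * M ^ 2 ≤ L := by rw [hLdef]; linarith
  obtain ⟨ε₁, hε₁⟩ : ∃ ε₁ : ℝ, ε₁ = ε / (4 * L) := ⟨_, rfl⟩
  have hε₁0 : 0 < ε₁ := by rw [hε₁]; positivity
  obtain ⟨U1, hU1⟩ : ∃ U1 : Set G, U1 = {g : G | ∀ F : Γ → ℂ, (∀ x, ‖F x‖ ≤ 1) → ∀ B, Cm W B →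
    ‖B‖ ≤ 1 → ∀ h, ‖(mc mp F * π g - π g * mc mp F) (B (π h (Ω j₀)))‖ ≤ ε₁} := ⟨_, rfl⟩
  have hU1n : U1 ∈ 𝓝 (1 : G) := by
    rw [hU1]
    exact uc_fn1 hf hpi (norm_fam hp j₀) hUC hε₁0
  have h0 : Tendsto (fun x : V => (n x)⁻¹) (𝓝 0) (𝓝 1) := by
    have h1 := hnc.inv
    rwa [inv_one] at h1
  obtain ⟨r₀, hr₀, hr₀'⟩ := Metric.eventually_nhds_iff_ball.1 (h0.eventually hU1n)
  obtain ⟨r, hrdef⟩ : ∃ r : ℝ, r = min (r₀ / 2) 1 := ⟨_, rfl⟩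
  have hr : 0 < r := by rw [hrdef]; positivity
  have hr1 : r ≤ 1 := by rw [hrdef]; exact min_le_right _ _
  have hrr₀ : r < r₀ := by
    rw [hrdef]
    exact (min_le_left _ _).trans_lt (half_lt_self hr₀)
  have hμ0 : μ (Metric.closedBall (0 : V) r) ≠ 0 := (Metric.measure_closedBall_pos μ 0 hr).ne'
  have hμt : μ (Metric.closedBall (0 : V) r) ≠ ∞ := (isCompact_closedBall (0 : V) r).measure_ne_top
  obtain ⟨v, hv⟩ : ∃ v : ℝ, v = (μ (Metric.closedBall (0 : V) r)).toReal := ⟨_, rfl⟩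
  have hv0 : 0 < v := by rw [hv]; exact ENNReal.toReal_pos hμ0 hμt
  have hvm : μ (Metric.closedBall (0 : V) r) = ENNReal.ofReal v := by
    rw [hv, ENNReal.ofReal_toReal hμt]
  obtain ⟨q', hq'⟩ : ∃ q' : ℝ, q' = v * (L⁻¹ * (ε / 2)) ^ 2 / 4 := ⟨_, rfl⟩
  have hq0 : 0 < q' := by rw [hq']; positivity
  obtain ⟨C, hC⟩ := hORB j₀ 1 q' hq0
  have hC1 : (0 : ℝ) < |C| + 1 := by positivity
  refine ⟨q' / (|C| + 1), div_pos hq0 hC1, fun N => ?_⟩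
  have hO : U1⁻¹ ∈ 𝓝 (1 : G) := inv_mem_nhds_one G hU1n
  filter_upwards [hctr N _ hO] with s hs γ F F' hF hF' c hc hN
  obtain ⟨w, hw⟩ : ∃ w : G, w = (b' ^ s)⁻¹ * b ^ N := ⟨_, rfl⟩
  rw [← hw]
  obtain ⟨X, hX⟩ : ∃ X, X = XX mp π w F F' := ⟨_, rfl⟩
  have hXcm : Cm W X := by rw [hX]; exact XX_cm hleg hf hR hF hF' w
  have hXn : ‖X‖ ≤ L := by
    rw [hX]
    exact (XX_norm hf hR hM0.le hF hF' w).trans hcL
  have hXt : TRNF lam Ω X ≤ c := by rw [hX]; exact XX_trnF hp hM hleg hf hR hF hF' w hc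
  by_contra hcon
  rw [not_le, ← hX] at hcon
  obtain ⟨T, hT⟩ : ∃ T : K →L[ℂ] K, T = ((L : ℂ)⁻¹) • (lam γ⁻¹ * X * lam γ) := ⟨_, rfl⟩
  have hlW : ∀ γ, Cm W (lam γ) := fun γ w' hw' => (hp.WL w' hw' γ).symm
  have hTcm : Cm W T := by
    intro w' hw'
    rw [hT, smul_mul_assoc, cm_mul (cm_mul (hlW γ⁻¹) hXcm) (hlW γ) w' hw', mul_smul_comm]
  have hln : ∀ γ x, ‖lam γ x‖ = ‖x‖ := fun γ x => unitary_norm hp.adjL γ x
  have hTap : ∀ x, ‖T x‖ = L⁻¹ * ‖X (lam γ x)‖ := by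
    intro x
    rw [hT, ContinuousLinearMap.smul_apply, norm_smul, norm_inv, Complex.norm_real,
      Real.norm_eq_abs, abs_of_pos hL0]
    congr 1
    exact hln _ _
  have hT1 : ‖T‖ ≤ 1 := by
    refine ContinuousLinearMap.opNorm_le_bound _ zero_le_one fun x => ?_
    rw [hTap, one_mul, inv_mul_le_iff₀ hL0]
    refine (X.le_opNorm _).trans ?_
    rw [hln]
    exact mul_le_mul_of_nonneg_right hXn (norm_nonneg _)
  have hTt : TRNF lam Ω T ≤ c := by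
    have h1 : TRNF lam Ω T ≤ TRNF lam Ω (lam γ⁻¹ * X * lam γ) := by
      rw [TRNF, TRNF]
      refine Finset.sum_le_sum fun j _ => ?_
      rw [TRN, TRN]
      refine ENNReal.tsum_le_tsum fun η => ?_
      rw [hT, ContinuousLinearMap.smul_apply, enorm_smul]
      have h2 : ‖((L : ℂ)⁻¹)‖ₑ ≤ 1 := by
        rw [← ofReal_norm_eq_enorm, norm_inv, Complex.norm_real, Real.norm_eq_abs,
          abs_of_pos hL0, ENNReal.ofReal_le_one]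
        exact inv_le_one_of_one_le₀ hL1
      gcongr
      calc ‖((L : ℂ)⁻¹)‖ₑ * ‖(lam γ⁻¹ * X * lam γ) (lam η (Ω j))‖ₑ
          ≤ 1 * ‖(lam γ⁻¹ * X * lam γ) (lam η (Ω j))‖ₑ := by gcongr
        _ = _ := one_mul _
    rw [trn_lamF γ hp.adjL] at h1
    exact h1.trans hXt
  have hup := hC N T hTcm hT1
  obtain ⟨h, hh⟩ : ∃ h : G, h = (b ^ N)⁻¹ := ⟨_, rfl⟩
  rw [← hh] at hcon
  -- lower bound
  have hlow : ∀ x ∈ Metric.closedBall (0 : V) r, ENNReal.ofReal ((L⁻¹ * (ε / 2)) ^ 2) ≤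
      ‖T (π (1 * b ^ N * n x * 1⁻¹)⁻¹ (Ω j₀))‖ₑ ^ 2 := by
    intro x hx
    obtain ⟨g, hg⟩ : ∃ g : G, g = (n x)⁻¹ := ⟨_, rfl⟩
    obtain ⟨g', hg'⟩ : ∃ g' : G, g' = ((b' ^ s)⁻¹ * (b ^ N * n x * (b ^ N)⁻¹) * b' ^ s)⁻¹ := ⟨_, rfl⟩
    have hgU : g ∈ U1 := by
      rw [hg]
      exact hr₀' x (Metric.closedBall_subset_ball hrr₀ hx)
    have hgU' : g' ∈ U1 := by
      rw [hg']
      exact Set.mem_inv.1 (hs x (Metric.closedBall_subset_closedBall hr1 hx))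
    rw [hU1] at hgU hgU'
    have hgg : w * g = g' * w := by
      rw [hw, hg, hg']
      group
    have hmv := XX_move (ι := ι) hp.adjP hp.adjL hp.comm hp.WL hf hleg hR hM1 (h := h) hε₁0.le
      hgU hgU' hgg hF hF' γ
    rw [← hX] at hmv
    have e1 : (1 * b ^ N * n x * 1⁻¹)⁻¹ = g * h := by
      rw [hg, hh]
      group
    have e2 : lam γ (π (1 * b ^ N * n x * 1⁻¹)⁻¹ (Ω j₀)) = π g (lam γ (π h (Ω j₀))) := by
      rw [e1, map_mul]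
      exact (congrArg (fun A : K →L[ℂ] K => A (π h (Ω j₀))) (hp.comm g γ)).symm
    have h3 := norm_sub_norm_le (π g (X (lam γ (π h (Ω j₀))))) (X (π g (lam γ (π h (Ω j₀)))))
    rw [norm_sub_rev, hpi] at h3
    have h4 : 2 * (Fintype.card ι * M ^ 2) * ε₁ ≤ ε / 2 := by
      have h5 : 2 * (Fintype.card ι * M ^ 2) * ε₁ ≤ 2 * L * ε₁ := by
        gcongr
      refine h5.trans (le_of_eq ?_)
      rw [hε₁]
      field_simp
      ring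
    have h6 : ε / 2 ≤ ‖X (π g (lam γ (π h (Ω j₀))))‖ := by linarith
    rw [← ofReal_norm, ← ENNReal.ofReal_pow (norm_nonneg _), hTap, e2]
    refine ENNReal.ofReal_le_ofReal (pow_le_pow_left₀ (by positivity) ?_ 2)
    gcongr
  have hlow2 : ENNReal.ofReal ((L⁻¹ * (ε / 2)) ^ 2) * ENNReal.ofReal v ≤
      ∫⁻ x in Metric.closedBall (0 : V) 1, ‖T (π (1 * b ^ N * n x * 1⁻¹)⁻¹ (Ω j₀))‖ₑ ^ 2 ∂μ := by
    rw [← hvm, ← setLIntegral_const]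
    refine (setLIntegral_mono' Metric.isClosed_closedBall.measurableSet hlow).trans ?_
    exact lintegral_mono_set (Metric.closedBall_subset_closedBall hr1)
  have hup2 : ENNReal.ofReal (C * ρ ^ N) * TRNF lam Ω T ≤ ENNReal.ofReal q' := by
    have e1 : ENNReal.ofReal (C * ρ ^ N) ≤ ENNReal.ofReal |C| * ENNReal.ofReal (ρ ^ N) := by
      rw [← ENNReal.ofReal_mul (abs_nonneg C)]
      refine ENNReal.ofReal_le_ofReal ?_
      gcongr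
      exact le_abs_self C
    calc ENNReal.ofReal (C * ρ ^ N) * TRNF lam Ω T
        ≤ ENNReal.ofReal |C| * ENNReal.ofReal (ρ ^ N) * c := by gcongr
      _ = ENNReal.ofReal |C| * (ENNReal.ofReal (ρ ^ N) * c) := mul_assoc _ _ _
      _ ≤ ENNReal.ofReal |C| * ENNReal.ofReal (q' / (|C| + 1)) := by gcongr
      _ = ENNReal.ofReal (|C| * (q' / (|C| + 1))) := (ENNReal.ofReal_mul (abs_nonneg C)).symm
      _ ≤ ENNReal.ofReal q' := by
          refine ENNReal.ofReal_le_ofReal ?_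
          calc |C| * (q' / (|C| + 1)) ≤ (|C| + 1) * (q' / (|C| + 1)) := by
                gcongr
                linarith
            _ = q' := by field_simp
  have hfin := hlow2.trans (hup.trans (add_le_add_left hup2 _))
  rw [← ENNReal.ofReal_mul (by positivity), ← ENNReal.ofReal_add hq0.le hq0.le] at hfin
  have h9 := (ENNReal.ofReal_le_ofReal_iff (by positivity)).1 hfin
  rw [hq'] at h9
  have h10 : 0 < v * (L⁻¹ * (ε / 2)) ^ 2 := by positivity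
  nlinarith

end est

end Vale.Agent.P092.SPC
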