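import Vale.Agent.P092.SPC.Ex
import Vale.Agent.P092.SPT.UnC

/-!
P092, TEAM P, TRACK C, all amplifications (helper421): ICC lattices of `Sp_4(ℂ)/Z`.
-/

set_option linter.all false

open Matrix Filter Topology

namespace Vale.Agent.P092.SPC

open Vale.Agent.P092.H684.Psp (PSp4)
open Vale.Agent.P092.SNT (CoreAllE)

/-- **The core statement of `PSp_4(ℂ)`, all amplifications**, from the relations of a pair of
letters. -/
theorem coreAllE_pspC (hA : H616.CO.RelA) : CoreAllE (PSp4 ℂ) :=
  coreAllE_C hA (H714.AdmS4.adm_quo _ (H684.Psp.scc ℂ))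

/-- **ICC lattices of `Sp_4(ℂ)/Z`, all amplifications.** -/
theorem superAll_quoC (hA : H616.CO.RelA) {E : Type} [Group E] [TopologicalSpace E]
    (hE : UN.Quo (symplecticGroup (Fin 2) ℂ) E) {Γ : Type} [Group Γ] (hicc : UN.ICC Γ)
    (i : Γ →* E) (hi : Function.Injective i) (hl : UN.IsLattice i.range) : UN.SuperAll Γ :=
  SP.X.superAll_quo4 (coreAllE_pspC hA) hE hicc i hi hl

end Vale.Agent.P092.SPC
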