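import Vale.Agent.P092.H678.O.ClsC
import Vale.Agent.P092.UN.StV3

/-!
P092, TEAM P, [OV] (helper421): every ICC group with a subgroup of finite index which is a lattice
in `Sp_4(k)/Z`, `k` any local field of characteristic different from two.
-/

set_option linter.all false

namespace Vale.Agent.P092.SPC

open Vale.Agent.P092.UN (LatticeC3 VLatticeC3)
open Vale.Agent.P092.H678.OV (icc_fi superAll_virtC3)

/-- **Every ICC group with a subgroup of finite index which is a lattice in `Sp_4(k)/Z`, all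
amplifications.** -/
theorem superAll_vlatticeC3 : ∀ (Γ : Type) [Group Γ], VLatticeC3 Γ → UN.SuperAll Γ := by
  rintro Γ _ ⟨hicc, Γ₀, hfi, E, iE, tE, i, ht, hi, hl⟩
  haveI := hfi
  exact superAll_virtC3 hicc hfi ⟨icc_fi hicc Γ₀, E, iE, tE, i, ht, hi, hl⟩

/-- the class contains `LatticeC3` -/
theorem vlattice_of_latticeC3 {Γ : Type} [Group Γ] (h : LatticeC3 Γ) : VLatticeC3 Γ := by
  obtain ⟨hicc, E, iE, tE, i, ht, hi, hl⟩ := h
  refine ⟨hicc, ⊤, inferInstance, E, iE, tE, i.comp (⊤ : Subgroup Γ).subtype, ht,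
    hi.comp Subtype.val_injective, ?_⟩
  have e : (i.comp (⊤ : Subgroup Γ).subtype).range = i.range := by
    ext x
    constructor
    · rintro ⟨y, rfl⟩
      exact ⟨y, rfl⟩
    · rintro ⟨y, rfl⟩
      exact ⟨⟨y, trivial⟩, rfl⟩
  rwa [e]

end Vale.Agent.P092.SPC
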